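import Mathlib

/-!
P092 (helper734): a closed translation invariant subspace of `L²(G)` which is closed under
products and conjugation is everything, for `G` topologically simple and noncompact.
-/

set_option linter.all false

open MeasureTheory Filter Topology
open scoped ENNReal InnerProductSpace ComplexConjugate Pointwise

namespace Vale.Agent.P092.H734

/-! ### Stone-Weierstrass for functions vanishing at infinity -/

section sw

variable {X : Type*} [TopologicalSpace X]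

/-- the subalgebra of `C(OnePoint X, ℝ)` attached to an algebra `S` of functions vanishing at
infinity -/
def oneAlg (S : Set (X → ℝ)) (h0 : (fun _ => 0) ∈ S)
    (hadd : ∀ f ∈ S, ∀ g ∈ S, (fun x => f x + g x) ∈ S)
    (hmul : ∀ f ∈ S, ∀ g ∈ S, (fun x => f x * g x) ∈ S)
    (hsmul : ∀ (c : ℝ), ∀ f ∈ S, (fun x => c * f x) ∈ S) : Subalgebra ℝ C(OnePoint X, ℝ) where
  carrier := {F | (fun x : X => F x - F OnePoint.infty) ∈ S}
  mul_mem' := by
    intro F F' hF hF'
    have h1 := hadd _ (hadd _ (hmul _ hF _ hF') _ (hsmul (F OnePoint.infty) _ hF')) _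
      (hsmul (F' OnePoint.infty) _ hF)
    have e : (fun x : X => (F * F') x - (F * F') OnePoint.infty) = fun x : X =>
        (F x - F OnePoint.infty) * (F' x - F' OnePoint.infty) +
          F OnePoint.infty * (F' x - F' OnePoint.infty) +
          F' OnePoint.infty * (F x - F OnePoint.infty) := by
      funext x
      simp only [ContinuousMap.mul_apply]
      ring
    change (fun x : X => (F * F') x - (F * F') OnePoint.infty) ∈ S
    rw [e]
    exact h1
  add_mem' := by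
    intro F F' hF hF'
    have h1 := hadd _ hF _ hF'
    have e : (fun x : X => (F + F') x - (F + F') OnePoint.infty) = fun x : X =>
        (F x - F OnePoint.infty) + (F' x - F' OnePoint.infty) := by
      funext x
      simp only [ContinuousMap.add_apply]
      ring
    change (fun x : X => (F + F') x - (F + F') OnePoint.infty) ∈ S
    rw [e]
    exact h1
  algebraMap_mem' := by
    intro r
    change (fun x : X => (algebraMap ℝ C(OnePoint X, ℝ) r) x -
      (algebraMap ℝ C(OnePoint X, ℝ) r) OnePoint.infty) ∈ S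
    have e : (fun x : X => (algebraMap ℝ C(OnePoint X, ℝ) r) x -
      (algebraMap ℝ C(OnePoint X, ℝ) r) OnePoint.infty) = fun _ => 0 := by
      funext x
      simp [Algebra.algebraMap_eq_smul_one]
    rw [e]
    exact h0

theorem swC0 [LocallyCompactSpace X] [T2Space X] (S : Set (X → ℝ))
    (hcont : ∀ f ∈ S, Continuous f) (hinf : ∀ f ∈ S, Tendsto f (cocompact X) (𝓝 0))
    (h0 : (fun _ => 0) ∈ S)
    (hadd : ∀ f ∈ S, ∀ g ∈ S, (fun x => f x + g x) ∈ S)
    (hmul : ∀ f ∈ S, ∀ g ∈ S, (fun x => f x * g x) ∈ S)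
    (hsmul : ∀ (c : ℝ), ∀ f ∈ S, (fun x => c * f x) ∈ S)
    (hsep : ∀ x y, x ≠ y → ∃ f ∈ S, f x ≠ f y) (hnz : ∀ x, ∃ f ∈ S, f x ≠ 0)
    (g : X → ℝ) (hg : Continuous g) (hg0 : Tendsto g (cocompact X) (𝓝 0)) {ε : ℝ} (hε : 0 < ε) :
    ∃ f ∈ S, ∀ x, |f x - g x| < ε := by
  -- extension of an element of `S`
  have hext : ∀ f ∈ S, ∃ F : C(OnePoint X, ℝ), (∀ x : X, F x = f x) ∧ F OnePoint.infty = 0 ∧
      F ∈ oneAlg S h0 hadd hmul hsmul := by
    intro f hf
    refine ⟨OnePoint.continuousMapMk ⟨f, hcont f hf⟩ 0 (by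
      rw [Filter.coclosedCompact_eq_cocompact]; exact hinf f hf), fun x => rfl, rfl, ?_⟩
    change (fun x : X => f x - 0) ∈ S
    simpa using hf
  have hsepA : (oneAlg S h0 hadd hmul hsmul).SeparatesPoints := by
    intro x y hxy
    induction x using OnePoint.rec with
    | infty =>
      induction y using OnePoint.rec with
      | infty => exact absurd rfl hxy
      | coe y =>
        obtain ⟨f, hf, hfy⟩ := hnz y
        obtain ⟨F, h1, h2, h3⟩ := hext f hf
        refine ⟨F, ⟨F, h3, rfl⟩, ?_⟩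
        rw [h1, h2]
        exact hfy.symm
    | coe x =>
      induction y using OnePoint.rec with
      | infty =>
        obtain ⟨f, hf, hfy⟩ := hnz x
        obtain ⟨F, h1, h2, h3⟩ := hext f hf
        refine ⟨F, ⟨F, h3, rfl⟩, ?_⟩
        rw [h1, h2]
        exact hfy
      | coe y =>
        obtain ⟨f, hf, hfy⟩ := hsep x y fun h => hxy (by rw [h])
        obtain ⟨F, h1, h2, h3⟩ := hext f hf
        refine ⟨F, ⟨F, h3, rfl⟩, ?_⟩
        rw [h1, h1]
        exact hfy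
  obtain ⟨Gx, hG1, hG2⟩ : ∃ Gx : C(OnePoint X, ℝ), (∀ x : X, Gx x = g x) ∧
      Gx OnePoint.infty = 0 := by
    refine ⟨OnePoint.continuousMapMk ⟨g, hg⟩ 0 (by
      rw [Filter.coclosedCompact_eq_cocompact]; exact hg0), fun x => rfl, rfl⟩
  obtain ⟨⟨F, hF⟩, hFG⟩ := ContinuousMap.exists_mem_subalgebra_near_continuousMap_of_separatesPoints
    (oneAlg S h0 hadd hmul hsmul) hsepA Gx (ε / 2) (half_pos hε)
  refine ⟨fun x => F x - F OnePoint.infty, hF, fun x => ?_⟩
  have h1 : ∀ z, |F z - Gx z| < ε / 2 := by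
    intro z
    have h2 := (ContinuousMap.norm_coe_le_norm (F - Gx) z).trans_lt hFG
    simpa using h2
  have h2 := h1 x
  have h3 := h1 OnePoint.infty
  rw [hG1] at h2
  rw [hG2, sub_zero] at h3
  calc |F x - F OnePoint.infty - g x| = |(F x - g x) - F OnePoint.infty| := by ring_nf
    _ ≤ |F x - g x| + |F OnePoint.infty| := abs_sub _ _
    _ < ε := by linarith

end sw

/-! ### The subspace -/

section grp

variable {G : Type*} [Group G] [TopologicalSpace G] [IsTopologicalGroup G] [LocallyCompactSpace G]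
  [SecondCountableTopology G] [T2Space G] [MeasurableSpace G] [BorelSpace G] {μ : Measure G}
  [μ.IsHaarMeasure] [μ.IsMulRightInvariant]

/-- A closed subspace of `L²(G)` which is invariant under both translations, conjugation, and
closed under multiplication by its bounded elements. -/
structure InvAlg (μ : Measure G) (A : Submodule ℂ (Lp ℂ 2 μ)) : Prop where
  closed : IsClosed (A : Set (Lp ℂ 2 μ))
  left : ∀ g : G, ∀ f ∈ A, ∀ f' : Lp ℂ 2 μ, (f' =ᵐ[μ] fun x => f (g * x)) → f' ∈ A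
  right : ∀ g : G, ∀ f ∈ A, ∀ f' : Lp ℂ 2 μ, (f' =ᵐ[μ] fun x => f (x * g)) → f' ∈ A
  star : ∀ f ∈ A, ∀ f' : Lp ℂ 2 μ, (f' =ᵐ[μ] fun x => (starRingEnd ℂ) (f x)) → f' ∈ A
  mul : ∀ f ∈ A, (∃ C : ℝ, ∀ᵐ x ∂μ, ‖f x‖ ≤ C) → ∀ g ∈ A, ∀ h : Lp ℂ 2 μ,
    (h =ᵐ[μ] fun x => f x * g x) → h ∈ A

/-- the continuous elements vanishing at infinity -/
def C0A (A : Submodule ℂ (Lp ℂ 2 μ)) : Set (G → ℂ) :=
  {u | Continuous u ∧ Tendsto u (cocompact G) (𝓝 0) ∧ ∃ f ∈ A, f =ᵐ[μ] u}

variable {A : Submodule ℂ (Lp ℂ 2 μ)}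

theorem C0A.bdd {u : G → ℂ} (hu : u ∈ C0A A) : ∃ C : ℝ, ∀ x, ‖u x‖ ≤ C := by
  obtain ⟨hc, h0, -⟩ := hu
  have h1 : ∀ᶠ x in cocompact G, ‖u x‖ ≤ 1 := by
    have h2 := h0.norm
    rw [norm_zero] at h2
    exact h2.eventually (ge_mem_nhds one_pos)
  obtain ⟨K, hK, hKu⟩ := mem_cocompact.mp h1
  obtain ⟨C, hC⟩ := hK.exists_bound_of_continuousOn hc.continuousOn
  refine ⟨max C 1, fun x => ?_⟩
  by_cases hx : x ∈ K
  · exact (hC x hx).trans (le_max_left _ _)
  · exact (hKu hx : ‖u x‖ ≤ 1).trans (le_max_right _ _)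

theorem C0A.zero : (fun _ => 0) ∈ C0A A :=
  ⟨continuous_const, tendsto_const_nhds, 0, A.zero_mem, Lp.coeFn_zero _ _ _⟩

theorem C0A.add {u v : G → ℂ} (hu : u ∈ C0A A) (hv : v ∈ C0A A) : (fun x => u x + v x) ∈ C0A A := by
  obtain ⟨hu1, hu2, f, hf, hfu⟩ := hu
  obtain ⟨hv1, hv2, g, hg, hgv⟩ := hv
  refine ⟨hu1.add hv1, ?_, f + g, A.add_mem hf hg, ?_⟩
  · simpa using hu2.add hv2
  · filter_upwards [Lp.coeFn_add f g, hfu, hgv] with x h1 h2 h3
    rw [h1, Pi.add_apply, h2, h3]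

theorem C0A.smul {u : G → ℂ} (c : ℂ) (hu : u ∈ C0A A) : (fun x => c * u x) ∈ C0A A := by
  obtain ⟨hu1, hu2, f, hf, hfu⟩ := hu
  refine ⟨continuous_const.mul hu1, ?_, c • f, A.smul_mem c hf, ?_⟩
  · simpa using hu2.const_mul c
  · filter_upwards [Lp.coeFn_smul c f, hfu] with x h1 h2
    rw [h1, Pi.smul_apply, h2, smul_eq_mul]

theorem C0A.mul (hA : InvAlg μ A) {u v : G → ℂ} (hu : u ∈ C0A A) (hv : v ∈ C0A A) :
    (fun x => u x * v x) ∈ C0A A := by
  obtain ⟨C, hC⟩ := C0A.bdd hu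
  obtain ⟨hu1, hu2, f, hf, hfu⟩ := hu
  obtain ⟨hv1, hv2, g, hg, hgv⟩ := hv
  refine ⟨hu1.mul hv1, ?_, ?_⟩
  · simpa using hu2.mul hv2
  · have hm : MemLp (fun x => u x * v x) 2 μ := by
      have h1 : MemLp v 2 μ := (memLp_congr_ae hgv).mp (Lp.memLp g)
      refine MemLp.of_le_mul (c := C) h1 (hu1.mul hv1).aestronglyMeasurable
        (Eventually.of_forall fun x => ?_)
      rw [norm_mul]
      exact mul_le_mul_of_nonneg_right (hC x) (norm_nonneg _)
    refine ⟨hm.toLp _, ?_, hm.coeFn_toLp⟩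
    refine hA.mul f hf ⟨C, ?_⟩ g hg _ ?_
    · filter_upwards [hfu] with x hx
      rw [hx]
      exact hC x
    · filter_upwards [hm.coeFn_toLp, hfu, hgv] with x h1 h2 h3
      rw [h1, h2, h3]

theorem C0A.star (hA : InvAlg μ A) {u : G → ℂ} (hu : u ∈ C0A A) :
    (fun x => (starRingEnd ℂ) (u x)) ∈ C0A A := by
  obtain ⟨hu1, hu2, f, hf, hfu⟩ := hu
  have hm : MemLp (fun x => (starRingEnd ℂ) (u x)) 2 μ := by
    have h1 : MemLp u 2 μ := (memLp_congr_ae hfu).mp (Lp.memLp f)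
    exact MemLp.of_le h1 (Complex.continuous_conj.comp hu1).aestronglyMeasurable
      (Eventually.of_forall fun x => by rw [RCLike.norm_conj])
  refine ⟨Complex.continuous_conj.comp hu1, ?_, hm.toLp _, ?_, hm.coeFn_toLp⟩
  · have h1 := (Complex.continuous_conj.tendsto 0).comp hu2
    rwa [map_zero] at h1
  · refine hA.star f hf _ ?_
    filter_upwards [hm.coeFn_toLp, hfu] with x h1 h2
    rw [h1, h2]

theorem C0A.left (hA : InvAlg μ A) {u : G → ℂ} (hu : u ∈ C0A A) (g : G) :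
    (fun x => u (g * x)) ∈ C0A A := by
  obtain ⟨hu1, hu2, f, hf, hfu⟩ := hu
  have hmp := measurePreserving_mul_left μ g
  have hm : MemLp (fun x => u (g * x)) 2 μ := by
    have h1 : MemLp u 2 μ := (memLp_congr_ae hfu).mp (Lp.memLp f)
    exact h1.comp_measurePreserving hmp
  refine ⟨hu1.comp (continuous_const_mul g), ?_, hm.toLp _, ?_, hm.coeFn_toLp⟩
  · exact hu2.comp (Homeomorph.mulLeft g).isClosedEmbedding.tendsto_cocompact
  · refine hA.left g f hf _ ?_
    filter_upwards [hm.coeFn_toLp, hmp.quasiMeasurePreserving.ae hfu] with x h1 h2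
    rw [h1, h2]

theorem C0A.right (hA : InvAlg μ A) {u : G → ℂ} (hu : u ∈ C0A A) (g : G) :
    (fun x => u (x * g)) ∈ C0A A := by
  obtain ⟨hu1, hu2, f, hf, hfu⟩ := hu
  have hmp := measurePreserving_mul_right μ g
  have hm : MemLp (fun x => u (x * g)) 2 μ := by
    have h1 : MemLp u 2 μ := (memLp_congr_ae hfu).mp (Lp.memLp f)
    exact h1.comp_measurePreserving hmp
  refine ⟨hu1.comp (continuous_mul_const g), ?_, hm.toLp _, ?_, hm.coeFn_toLp⟩
  · exact hu2.comp (Homeomorph.mulRight g).isClosedEmbedding.tendsto_cocompact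
  · refine hA.right g f hf _ ?_
    filter_upwards [hm.coeFn_toLp, hmp.quasiMeasurePreserving.ae hfu] with x h1 h2
    rw [h1, h2]

/-- `ψ * f`-type smoothing: the function -/
noncomputable def smo (μ : Measure G) (ψ : G → ℂ) (F : Lp ℂ 2 μ) (x : G) : ℂ :=
  ∫ y, ψ y * F (x * y) ∂μ

theorem smo_eq_inner {ψ : G → ℂ} (hψ : MemLp (fun y => conj (ψ y)) 2 μ) (F : Lp ℂ 2 μ) (x : G) :
    smo μ ψ F x = ⟪hψ.toLp _, (DomMulAct.mk x) • F⟫_ℂ := by
  rw [L2.inner_def, smo]
  refine integral_congr_ae ?_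
  filter_upwards [hψ.coeFn_toLp, DomMulAct.smul_Lp_ae_eq (DomMulAct.mk x) F] with y h1 h2
  rw [h1, h2]
  simp [RCLike.inner_apply, mul_comm]

theorem memLp_conj {ψ : G → ℂ} (hψ : Continuous ψ) (hψc : HasCompactSupport ψ) :
    MemLp (fun y => conj (ψ y)) 2 μ := by
  have h1 : Continuous fun y => conj (ψ y) := Complex.continuous_conj.comp hψ
  refine h1.memLp_of_hasCompactSupport ?_
  exact hψc.comp_left (map_zero _)

theorem norm_smo_le {ψ : G → ℂ} (hψ : MemLp (fun y => conj (ψ y)) 2 μ) (F : Lp ℂ 2 μ) (x : G) :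
    ‖smo μ ψ F x‖ ≤ ‖hψ.toLp _‖ * ‖F‖ := by
  rw [smo_eq_inner hψ]
  refine (norm_inner_le_norm _ _).trans ?_
  rw [DomMulAct.norm_smul_Lp]

theorem continuous_smo {ψ : G → ℂ} (hψ : MemLp (fun y => conj (ψ y)) 2 μ) (F : Lp ℂ 2 μ) :
    Continuous (smo μ ψ F) := by
  have h1 : smo μ ψ F = fun x => ⟪hψ.toLp _, (DomMulAct.mk x) • F⟫_ℂ := by
    funext x
    exact smo_eq_inner hψ F x
  rw [h1]
  have : Fact ((2 : ℝ≥0∞) ≠ ∞) := ⟨by norm_num⟩
  exact continuous_const.inner (DomMulAct.continuous_mk.smul continuous_const)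

theorem smo_sub {ψ : G → ℂ} (hψ : MemLp (fun y => conj (ψ y)) 2 μ) (F F' : Lp ℂ 2 μ) (x : G) :
    smo μ ψ (F - F') x = smo μ ψ F x - smo μ ψ F' x := by
  rw [smo_eq_inner hψ, smo_eq_inner hψ, smo_eq_inner hψ, DomMulAct.smul_Lp_sub, inner_sub_right]

theorem tendsto_smo {ψ : G → ℂ} (hψ1 : Continuous ψ) (hψc : HasCompactSupport ψ) (F : Lp ℂ 2 μ) :
    Tendsto (smo μ ψ F) (cocompact G) (𝓝 0) := by
  have hψ := memLp_conj (μ := μ) hψ1 hψc
  rw [Metric.tendsto_nhds]
  intro ε hε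
  set C : ℝ := ‖hψ.toLp _‖ + 1 with hC
  have hC0 : 0 < C := by positivity
  obtain ⟨f', hf'c, hf'n, hf'1, hf'm⟩ := (Lp.memLp F).exists_hasCompactSupport_eLpNorm_sub_le
    (by norm_num) (ε := ENNReal.ofReal (ε / (2 * C))) (by
      simp only [ne_eq, ENNReal.ofReal_eq_zero, not_le]; positivity)
  -- outside of `supp f' * (supp ψ)⁻¹` everything is small
  have hK : IsCompact (tsupport f' * (tsupport ψ)⁻¹) :=
    IsCompact.mul hf'c (IsCompact.inv hψc)
  refine mem_cocompact.mpr ⟨_, hK, fun x hx => ?_⟩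
  have h1 : smo μ ψ (hf'm.toLp f') x = 0 := by
    rw [smo_eq_inner hψ, L2.inner_def]
    rw [← integral_zero G ℂ (μ := μ)]
    refine integral_congr_ae ?_
    have hmp := measurePreserving_mul_left μ x
    filter_upwards [hψ.coeFn_toLp, DomMulAct.smul_Lp_ae_eq (DomMulAct.mk x) (hf'm.toLp f'),
      hmp.quasiMeasurePreserving.ae hf'm.coeFn_toLp] with y e1 e2 e3
    rw [e1, e2]
    change inner ℂ (conj (ψ y)) ((hf'm.toLp f') (x * y)) = 0
    rw [e3]
    by_cases hy : ψ y = 0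
    · simp [hy]
    · have hf0 : f' (x * y) = 0 := by
        by_contra hne
        refine hx ?_
        have e4 : x = (x * y) * y⁻¹ := by group
        rw [e4]
        exact Set.mul_mem_mul (subset_tsupport _ hne)
          (Set.inv_mem_inv.mpr (subset_tsupport _ hy))
      simp [hf0]
  have h2 : ‖F - hf'm.toLp f'‖ ≤ ε / (2 * C) := by
    rw [Lp.norm_def]
    have e1 : eLpNorm (⇑(F - hf'm.toLp f')) 2 μ = eLpNorm (⇑F - f') 2 μ := by
      refine eLpNorm_congr_ae ?_
      filter_upwards [Lp.coeFn_sub F (hf'm.toLp f'), hf'm.coeFn_toLp] with y e2 e3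
      rw [e2, Pi.sub_apply, Pi.sub_apply, e3]
    rw [e1]
    refine ENNReal.toReal_le_of_le_ofReal (by positivity) hf'n
  have h3 : smo μ ψ F x = smo μ ψ (F - hf'm.toLp f') x := by
    rw [smo_sub hψ, h1, sub_zero]
  change dist (smo μ ψ F x) 0 < ε
  rw [dist_zero_right, h3]
  have h4 := norm_smo_le hψ (F - hf'm.toLp f') x
  calc ‖smo μ ψ (F - hf'm.toLp f') x‖ ≤ ‖hψ.toLp _‖ * ‖F - hf'm.toLp f'‖ := h4
    _ ≤ C * (ε / (2 * C)) := by
        refine mul_le_mul (by rw [hC]; linarith) h2 (norm_nonneg _) hC0.le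
    _ = ε / 2 := by field_simp
    _ < ε := half_lt_self hε

theorem fubini_smo {ψ : G → ℂ} (hψ1 : Continuous ψ) (hψc : HasCompactSupport ψ) (F : Lp ℂ 2 μ)
    {S : Set G} (hS : MeasurableSet S) (hμS : μ S ≠ ∞) :
    ∫ y, ψ y * ∫ x in S, F (x * y) ∂μ ∂μ = ∫ x in S, smo μ ψ F x ∂μ := by
  have hF2 : Integrable (fun x => ‖F x‖ ^ 2) μ := by
    have := (Lp.memLp F).integrable_norm_pow (p := 2) (by norm_num)
    simpa using this
  have hmp : ∀ y, MeasurePreserving (fun x : G => x * y) μ μ := fun y =>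
    measurePreserving_mul_right μ y
  have hFy : ∀ y, MemLp (fun x => F (x * y)) 2 μ := fun y =>
    (Lp.memLp F).comp_measurePreserving (hmp y)
  have hFi : ∀ y, IntegrableOn (fun x => F (x * y)) S μ := by
    intro y
    have : IsFiniteMeasure (μ.restrict S) := ⟨by simpa using hμS.lt_top⟩
    exact ((hFy y).restrict S).integrable (by norm_num)
  have hint : Integrable (Function.uncurry fun (y x : G) => ψ y * F (x * y))
      (μ.prod (μ.restrict S)) := by
    have hmeas : StronglyMeasurable (Function.uncurry fun (y x : G) => ψ y * F (x * y)) := by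
      refine (hψ1.stronglyMeasurable.comp_measurable measurable_fst).mul ?_
      exact (Lp.stronglyMeasurable F).comp_measurable (measurable_snd.mul measurable_fst)
    rw [integrable_prod_iff hmeas.aestronglyMeasurable]
    refine ⟨Eventually.of_forall fun y => (hFi y).const_mul (ψ y), ?_⟩
    have hmeas2 : AEStronglyMeasurable (fun y => ∫ x in S, ‖ψ y * F (x * y)‖ ∂μ) μ :=
      hmeas.aestronglyMeasurable.norm.integral_prod_right' (μ := μ) (ν := μ.restrict S)
    have hbig : Integrable (fun y => ‖ψ y‖ * (μ.real S + ∫ x, ‖F x‖ ^ 2 ∂μ)) μ :=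
      (hψ1.norm.integrable_of_hasCompactSupport hψc.norm).mul_const _
    refine hbig.mono' hmeas2 (Eventually.of_forall fun y => ?_)
    have h1 : 0 ≤ ∫ x in S, ‖ψ y * F (x * y)‖ ∂μ := integral_nonneg fun x => norm_nonneg _
    change ‖∫ x in S, ‖ψ y * F (x * y)‖ ∂μ‖ ≤ _
    rw [Real.norm_of_nonneg h1]
    have h2 : ∫ x in S, ‖ψ y * F (x * y)‖ ∂μ = ‖ψ y‖ * ∫ x in S, ‖F (x * y)‖ ∂μ := by
      rw [← integral_const_mul]
      exact integral_congr_ae (Eventually.of_forall fun x => norm_mul _ _)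
    rw [h2]
    refine mul_le_mul_of_nonneg_left ?_ (norm_nonneg _)
    have h3 : Integrable (fun x => ‖F (x * y)‖ ^ 2) μ := (hmp y).integrable_comp_of_integrable hF2
    have h4 : ∫ x in S, ‖F (x * y)‖ ∂μ ≤ ∫ x in S, (1 + ‖F (x * y)‖ ^ 2) ∂μ := by
      refine integral_mono (hFi y).norm ?_ fun x => ?_
      · have hc1 : Integrable (fun _ : G => (1 : ℝ)) (μ.restrict S) :=
          integrableOn_const hμS (by norm_num)
        exact hc1.add (h3.mono_measure Measure.restrict_le_self)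
      · have := norm_nonneg (F (x * y))
        change ‖F (x * y)‖ ≤ 1 + ‖F (x * y)‖ ^ 2
        nlinarith [sq_nonneg (‖F (x * y)‖ - 1)]
    refine h4.trans ?_
    have hc1 : Integrable (fun _ : G => (1 : ℝ)) (μ.restrict S) :=
      integrableOn_const hμS (by norm_num)
    rw [integral_add hc1 (h3.mono_measure Measure.restrict_le_self)]
    have h5 : ∫ x in S, (1 : ℝ) ∂μ = μ.real S := by simp
    rw [h5]
    have h6 : ∫ x in S, ‖F (x * y)‖ ^ 2 ∂μ ≤ ∫ x, ‖F (x * y)‖ ^ 2 ∂μ :=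
      setIntegral_le_integral h3 (Eventually.of_forall fun x => by positivity)
    have h7 : ∫ x, ‖F (x * y)‖ ^ 2 ∂μ = ∫ x, ‖F x‖ ^ 2 ∂μ :=
      integral_mul_right_eq_self (fun x => ‖F x‖ ^ 2) y
    linarith
  have h1 : ∀ y, ψ y * ∫ x in S, F (x * y) ∂μ = ∫ x in S, ψ y * F (x * y) ∂μ := fun y =>
    (integral_const_mul _ _).symm
  simp only [h1]
  exact integral_integral_swap hint

theorem smo_mem (hA : InvAlg μ A) {ψ : G → ℂ} (hψ1 : Continuous ψ) (hψc : HasCompactSupport ψ)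
    {F : Lp ℂ 2 μ} (hF : F ∈ A) : smo μ ψ F ∈ C0A A := by
  have hψ := memLp_conj (μ := μ) hψ1 hψc
  refine ⟨continuous_smo hψ F, tendsto_smo hψ1 hψc F, ?_⟩
  have : Fact ((2 : ℝ≥0∞) ≠ ∞) := ⟨by norm_num⟩
  have : OpensMeasurableSpace Gᵐᵒᵖ := ⟨MeasurableSpace.generateFrom_le fun U hU =>
    (IsOpen.preimage MulOpposite.continuous_op hU).measurableSet⟩
  -- the Bochner integral of right translates
  have hcont : Continuous fun y : G => ψ y • ((DomMulAct.mk (MulOpposite.op y)) • F : Lp ℂ 2 μ) := by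
    refine hψ1.smul ?_
    exact (DomMulAct.continuous_mk.comp MulOpposite.continuous_op).smul continuous_const
  have hint : Integrable (fun y : G => ψ y • ((DomMulAct.mk (MulOpposite.op y)) • F : Lp ℂ 2 μ))
      μ := hcont.integrable_of_hasCompactSupport hψc.smul_right
  obtain ⟨U, hU⟩ : ∃ U : Lp ℂ 2 μ,
    U = ∫ y, ψ y • ((DomMulAct.mk (MulOpposite.op y)) • F : Lp ℂ 2 μ) ∂μ := ⟨_, rfl⟩
  have hmem : ∀ y : G, ((DomMulAct.mk (MulOpposite.op y)) • F : Lp ℂ 2 μ) ∈ A := by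
    intro y
    refine hA.right y F hF _ ?_
    exact DomMulAct.smul_Lp_ae_eq (DomMulAct.mk (MulOpposite.op y)) F
  have hUA : U ∈ A := by
    have hcl := hA.closed
    have : CompleteSpace A := hcl.completeSpace_coe
    have h1 : (A.orthogonal.orthogonal) = A := by
      rw [Submodule.orthogonal_orthogonal_eq_closure]
      exact hcl.submodule_topologicalClosure_eq
    rw [← h1, Submodule.mem_orthogonal]
    intro w hw
    have h2 : ⟪w, U⟫_ℂ = ∫ y, ⟪w, ψ y • ((DomMulAct.mk (MulOpposite.op y)) • F : Lp ℂ 2 μ)⟫_ℂ ∂μ := by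
      rw [hU]
      exact (integral_inner hint w).symm
    rw [h2]
    rw [← integral_zero G ℂ (μ := μ)]
    refine integral_congr_ae (Eventually.of_forall fun y => ?_)
    change ⟪w, ψ y • ((DomMulAct.mk (MulOpposite.op y)) • F : Lp ℂ 2 μ)⟫_ℂ = 0
    rw [inner_smul_right, Submodule.inner_left_of_mem_orthogonal (hmem y) hw, mul_zero]
  refine ⟨U, hUA, ?_⟩
  refine ae_eq_of_forall_setIntegral_eq_of_sigmaFinite (fun S hS hμS => ?_) (fun S hS hμS => ?_)
    (fun S hS hμS => ?_)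
  · exact integrableOn_Lp_of_measure_ne_top U (by norm_num) hμS.ne
  · have : IsFiniteMeasure (μ.restrict S) := ⟨by simpa using hμS⟩
    refine Integrable.of_bound (C := ‖hψ.toLp _‖ * ‖F‖)
      (continuous_smo hψ F).aestronglyMeasurable (Eventually.of_forall fun x => ?_)
    exact norm_smo_le hψ F x
  · rw [← L2.inner_indicatorConstLp_one (𝕜 := ℂ) hS hμS.ne U, hU, ← integral_inner hint,
      ← fubini_smo hψ1 hψc F hS hμS.ne]
    refine integral_congr_ae (Eventually.of_forall fun y => ?_)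
    change ⟪indicatorConstLp 2 hS hμS.ne (1 : ℂ),
      ψ y • ((DomMulAct.mk (MulOpposite.op y)) • F : Lp ℂ 2 μ)⟫_ℂ = ψ y * ∫ x in S, F (x * y) ∂μ
    rw [inner_smul_right, L2.inner_indicatorConstLp_one]
    congr 1
    refine integral_congr_ae (ae_restrict_of_ae ?_)
    exact DomMulAct.smul_Lp_ae_eq (DomMulAct.mk (MulOpposite.op y)) F

/-- a nonzero element of `C0A` -/
theorem C0A.exists_ne (hA : InvAlg μ A) (h0 : A ≠ ⊥) : ∃ u ∈ C0A A, u 1 ≠ 0 := by
  obtain ⟨F, hF, hF0⟩ := Submodule.exists_mem_ne_zero_of_ne_bot h0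
  have hF0' : 0 < ‖F‖ := norm_pos_iff.mpr hF0
  obtain ⟨f', hf'c, hf'n, hf'1, hf'm⟩ := (Lp.memLp F).exists_hasCompactSupport_eLpNorm_sub_le
    (by norm_num) (ε := ENNReal.ofReal (‖F‖ / 2)) (by
      simp only [ne_eq, ENNReal.ofReal_eq_zero, not_le]; positivity)
  have hψ1 : Continuous fun y => (starRingEnd ℂ) (f' y) := Complex.continuous_conj.comp hf'1
  have hψc : HasCompactSupport fun y => (starRingEnd ℂ) (f' y) := hf'c.comp_left (map_zero _)
  refine ⟨smo μ (fun y => (starRingEnd ℂ) (f' y)) F, smo_mem hA hψ1 hψc hF, ?_⟩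
  have h2 : ‖F - hf'm.toLp f'‖ ≤ ‖F‖ / 2 := by
    rw [Lp.norm_def]
    have e1 : eLpNorm (⇑(F - hf'm.toLp f')) 2 μ = eLpNorm (⇑F - f') 2 μ := by
      refine eLpNorm_congr_ae ?_
      filter_upwards [Lp.coeFn_sub F (hf'm.toLp f'), hf'm.coeFn_toLp] with y e2 e3
      rw [e2, Pi.sub_apply, Pi.sub_apply, e3]
    rw [e1]
    exact ENNReal.toReal_le_of_le_ofReal (by positivity) hf'n
  have h3 : smo μ (fun y => (starRingEnd ℂ) (f' y)) F 1 = ⟪hf'm.toLp f', F⟫_ℂ := by
    rw [smo, L2.inner_def]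
    refine integral_congr_ae ?_
    filter_upwards [hf'm.coeFn_toLp] with y e1
    rw [e1, one_mul, RCLike.inner_apply, mul_comm]
  rw [h3]
  intro h4
  have h5 : ⟪F, F⟫_ℂ = ⟪F - hf'm.toLp f', F⟫_ℂ := by
    rw [inner_sub_left, h4, sub_zero]
  have h6 : ‖F‖ ^ 2 ≤ ‖F‖ / 2 * ‖F‖ := by
    have h7 : ‖⟪F, F⟫_ℂ‖ = ‖F‖ ^ 2 := by
      rw [inner_self_eq_norm_sq_to_K]
      simp
    rw [← h7, h5]
    refine (norm_inner_le_norm _ _).trans ?_
    exact mul_le_mul_of_nonneg_right h2 (norm_nonneg _)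
  nlinarith

theorem C0A.sep [NoncompactSpace G] (hA : InvAlg μ A) (h0 : A ≠ ⊥)
    (hN : ∀ N : Subgroup G, N.Normal → IsClosed (N : Set G) → N = ⊥ ∨ N = ⊤) {x y : G}
    (hxy : x ≠ y) : ∃ u ∈ C0A A, u x ≠ u y := by
  by_contra hcon
  push Not at hcon
  obtain ⟨N, hNd⟩ : ∃ N : Subgroup G, ∀ n, n ∈ N ↔ ∀ u ∈ C0A A, ∀ z, u (z * n) = u z := by
    refine ⟨{ carrier := {n | ∀ u ∈ C0A A, ∀ z, u (z * n) = u z}
              mul_mem' := ?_
              one_mem' := ?_
              inv_mem' := ?_ }, fun n => Iff.rfl⟩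
    · intro a b ha hb u hu z
      rw [← mul_assoc, hb u hu, ha u hu]
    · intro u _ z
      rw [mul_one]
    · intro a ha u hu z
      rw [← ha u hu (z * a⁻¹), inv_mul_cancel_right]
  have hcl : IsClosed (N : Set G) := by
    have e : (N : Set G) = ⋂ u ∈ C0A A, ⋂ z : G, {n | u (z * n) = u z} := by
      ext n
      simp only [SetLike.mem_coe, hNd, Set.mem_iInter, Set.mem_setOf_eq]
    rw [e]
    refine isClosed_biInter fun u hu => isClosed_iInter fun z => ?_
    exact isClosed_eq (hu.1.comp (continuous_const_mul z)) continuous_const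
  have hnorm : N.Normal := by
    constructor
    intro n hn g
    rw [hNd] at hn ⊢
    intro u hu z
    have h1 := hn _ (C0A.right hA hu g⁻¹) (z * g)
    rw [show z * (g * n * g⁻¹) = z * g * n * g⁻¹ by group, h1]
    congr 1
    group
  have hmem : x⁻¹ * y ∈ N := by
    rw [hNd]
    intro u hu z
    have h1 := hcon _ (C0A.left hA hu (z * x⁻¹))
    rw [show z * (x⁻¹ * y) = z * x⁻¹ * y by group, ← h1]
    congr 1
    group
  rcases hN N hnorm hcl with h | h
  · rw [h, Subgroup.mem_bot] at hmem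
    exact hxy (inv_mul_eq_one.mp hmem)
  · obtain ⟨u, hu, hu1⟩ := C0A.exists_ne hA h0
    have hconst : ∀ z, u z = u 1 := by
      intro z
      have h2 : z ∈ N := by rw [h]; trivial
      rw [hNd] at h2
      have h3 := h2 u hu 1
      rwa [one_mul] at h3
    have h2 := hu.2.1
    have e : u = fun _ => u 1 := funext hconst
    rw [e] at h2
    exact hu1 (tendsto_nhds_unique tendsto_const_nhds h2)

/-- the real elements of `C0A` -/
def R0A (A : Submodule ℂ (Lp ℂ 2 μ)) : Set (G → ℝ) := {f | (fun x => (f x : ℂ)) ∈ C0A A}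

theorem R0A.cont {f : G → ℝ} (hf : f ∈ R0A A) : Continuous f := by
  have h1 := Complex.continuous_re.comp hf.1
  exact h1

theorem R0A.inf {f : G → ℝ} (hf : f ∈ R0A A) : Tendsto f (cocompact G) (𝓝 0) := by
  have h1 := (Complex.continuous_re.tendsto 0).comp hf.2.1
  exact h1

theorem R0A.memLp {f : G → ℝ} (hf : f ∈ R0A A) : MemLp (fun x => (f x : ℂ)) 2 μ := by
  obtain ⟨_, _, F, hF, h⟩ := hf
  exact (memLp_congr_ae h).mp (Lp.memLp F)

theorem R0A.toLp_mem {f : G → ℝ} (hf : f ∈ R0A A) (h : MemLp (fun x => (f x : ℂ)) 2 μ) :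
    h.toLp _ ∈ A := by
  obtain ⟨_, _, F, hF, h1⟩ := hf
  have e : h.toLp _ = F := by
    refine Lp.ext ?_
    filter_upwards [h.coeFn_toLp, h1] with x e1 e2
    rw [e1, e2]
  rw [e]
  exact hF

theorem R0A.normSq (hA : InvAlg μ A) {u : G → ℂ} (hu : u ∈ C0A A) :
    (fun x => ‖u x‖ ^ 2) ∈ R0A A := by
  have h1 := C0A.mul hA (C0A.star hA hu) hu
  have e : (fun x => (starRingEnd ℂ) (u x) * u x) = fun x => (((‖u x‖ ^ 2 : ℝ)) : ℂ) := by
    funext x
    rw [← Complex.normSq_eq_conj_mul_self, Complex.normSq_eq_norm_sq]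
  rw [e] at h1
  exact h1

theorem R0A.re (hA : InvAlg μ A) {u : G → ℂ} (hu : u ∈ C0A A) : (fun x => (u x).re) ∈ R0A A := by
  have h1 := C0A.smul (1 / 2 : ℂ) (C0A.add hu (C0A.star hA hu))
  have e : (fun x => (1 / 2 : ℂ) * (u x + (starRingEnd ℂ) (u x))) = fun x => (((u x).re : ℝ) : ℂ) := by
    funext x
    rw [Complex.add_conj]
    push_cast
    ring
  rw [e] at h1
  exact h1

theorem R0A.im (hA : InvAlg μ A) {u : G → ℂ} (hu : u ∈ C0A A) : (fun x => (u x).im) ∈ R0A A := by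
  have h1 := R0A.re hA (C0A.smul (-Complex.I) hu)
  have e : (fun x => (-Complex.I * u x).re) = fun x => (u x).im := by
    funext x
    simp
  rw [e] at h1
  exact h1

theorem R0A.add {f g : G → ℝ} (hf : f ∈ R0A A) (hg : g ∈ R0A A) :
    (fun x => f x + g x) ∈ R0A A := by
  have h1 := C0A.add hf hg
  have e : (fun x => (f x : ℂ) + (g x : ℂ)) = fun x => ((f x + g x : ℝ) : ℂ) := by
    funext x; push_cast; rfl
  rw [e] at h1
  exact h1

theorem R0A.mul (hA : InvAlg μ A) {f g : G → ℝ} (hf : f ∈ R0A A) (hg : g ∈ R0A A) :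
    (fun x => f x * g x) ∈ R0A A := by
  have h1 := C0A.mul hA hf hg
  have e : (fun x => (f x : ℂ) * (g x : ℂ)) = fun x => ((f x * g x : ℝ) : ℂ) := by
    funext x; push_cast; rfl
  rw [e] at h1
  exact h1

theorem R0A.smul (c : ℝ) {f : G → ℝ} (hf : f ∈ R0A A) : (fun x => c * f x) ∈ R0A A := by
  have h1 := C0A.smul (c : ℂ) hf
  have e : (fun x => (c : ℂ) * (f x : ℂ)) = fun x => ((c * f x : ℝ) : ℂ) := by
    funext x; push_cast; rfl
  rw [e] at h1
  exact h1

theorem R0A.zero : (fun _ => 0) ∈ R0A A := by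
  have h1 : (fun _ => 0) ∈ C0A A := C0A.zero
  have e : (fun _ : G => (0 : ℂ)) = fun _ => ((0 : ℝ) : ℂ) := by
    funext x; simp
  rw [e] at h1
  exact h1

theorem R0A.pos_on (hA : InvAlg μ A) (h0 : A ≠ ⊥) {K : Set G} (hK : IsCompact K) :
    ∃ a ∈ R0A A, (∀ x, 0 ≤ a x) ∧ ∀ x ∈ K, 0 < a x := by
  refine hK.induction_on (p := fun K => ∃ a ∈ R0A A, (∀ x, 0 ≤ a x) ∧ ∀ x ∈ K, 0 < a x) ?_ ?_ ?_ ?_
  · exact ⟨_, R0A.zero, fun _ => le_rfl, fun x hx => hx.elim⟩
  · rintro s t hst ⟨a, h1, h2, h3⟩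
    exact ⟨a, h1, h2, fun x hx => h3 x (hst hx)⟩
  · rintro s t ⟨a, h1, h2, h3⟩ ⟨b, h4, h5, h6⟩
    refine ⟨_, R0A.add h1 h4, fun x => add_nonneg (h2 x) (h5 x), fun x hx => ?_⟩
    rcases hx with hx | hx
    · exact add_pos_of_pos_of_nonneg (h3 x hx) (h5 x)
    · exact add_pos_of_nonneg_of_pos (h2 x) (h6 x hx)
  · intro x hx
    obtain ⟨u, hu, hu1⟩ := C0A.exists_ne hA h0
    have h1 := R0A.normSq hA (C0A.left hA hu x⁻¹)
    refine ⟨{y | 0 < ‖u (x⁻¹ * y)‖ ^ 2}, mem_nhdsWithin_of_mem_nhds ?_, _, h1,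
      fun y => by positivity, fun y hy => hy⟩
    refine (isOpen_lt continuous_const (R0A.cont h1)).mem_nhds ?_
    change 0 < ‖u (x⁻¹ * x)‖ ^ 2
    rw [inv_mul_cancel]
    have := norm_pos_iff.mpr hu1
    positivity

theorem cc_mem [NoncompactSpace G] (hA : InvAlg μ A) (h0 : A ≠ ⊥)
    (hN : ∀ N : Subgroup G, N.Normal → IsClosed (N : Set G) → N = ⊥ ∨ N = ⊤) {g : G → ℝ}
    (hg : Continuous g) (hgc : HasCompactSupport g) (hm : MemLp (fun x => (g x : ℂ)) 2 μ) :
    hm.toLp _ ∈ A := by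
  obtain ⟨a, ha, ha0, hapos⟩ := R0A.pos_on hA h0 hgc
  have hcont : Continuous fun x => g x / a x := by
    rw [continuous_iff_continuousAt]
    intro x
    by_cases hx : x ∈ tsupport g
    · exact hg.continuousAt.div (R0A.cont ha).continuousAt (hapos x hx).ne'
    · have h1 : (fun x => g x / a x) =ᶠ[𝓝 x] fun _ => 0 := by
        have h2 : (tsupport g)ᶜ ∈ 𝓝 x := (isClosed_tsupport g).isOpen_compl.mem_nhds hx
        filter_upwards [h2] with y hy
        rw [image_eq_zero_of_notMem_tsupport hy, zero_div]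
      exact continuousAt_const.congr h1.symm
  have hinf : Tendsto (fun x => g x / a x) (cocompact G) (𝓝 0) := by
    have h1 : HasCompactSupport fun x => g x / a x := by
      refine HasCompactSupport.intro hgc fun x hx => ?_
      rw [image_eq_zero_of_notMem_tsupport hx, zero_div]
    exact h1.is_zero_at_infty
  have hcl := hA.closed
  rw [← SetLike.mem_coe, ← hcl.closure_eq, Metric.mem_closure_iff]
  intro ε hε
  have haL := R0A.memLp ha
  obtain ⟨C, hC⟩ : ∃ C : ℝ, C = ‖haL.toLp _‖ + 1 := ⟨_, rfl⟩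
  have hC0 : 0 < C := by rw [hC]; positivity
  obtain ⟨f, hf, hfg⟩ := swC0 (R0A A) (fun f hf => R0A.cont hf) (fun f hf => R0A.inf hf) R0A.zero
    (fun f hf g hg => R0A.add hf hg) (fun f hf g hg => R0A.mul hA hf hg)
    (fun c f hf => R0A.smul c hf)
    (fun x y hxy => by
      obtain ⟨u, hu, hne⟩ := C0A.sep hA h0 hN hxy
      by_cases h1 : (u x).re = (u y).re
      · refine ⟨_, R0A.im hA hu, fun h2 => hne (Complex.ext h1 h2)⟩
      · exact ⟨_, R0A.re hA hu, h1⟩)
    (fun x => by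
      obtain ⟨u, hu, hu1⟩ := C0A.exists_ne hA h0
      refine ⟨_, R0A.normSq hA (C0A.left hA hu x⁻¹), ?_⟩
      simp only [inv_mul_cancel]
      have := norm_pos_iff.mpr hu1
      positivity)
    (fun x => g x / a x) hcont hinf (ε := ε / (2 * C)) (by positivity)
  have hprod := R0A.mul hA ha hf
  have hprodL := R0A.memLp hprod
  refine ⟨hprodL.toLp _, R0A.toLp_mem hprod hprodL, ?_⟩
  rw [dist_eq_norm, ← MemLp.toLp_sub]
  have h1 : ‖(hm.sub hprodL).toLp _‖ ≤ ε / (2 * C) * ‖haL.toLp _‖ := by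
    refine Lp.norm_le_mul_norm_of_ae_le_mul ?_
    filter_upwards [(hm.sub hprodL).coeFn_toLp, haL.coeFn_toLp] with x e1 e2
    rw [e1, e2, Pi.sub_apply]
    have e3 : g x = a x * (g x / a x) := by
      by_cases hx : x ∈ tsupport g
      · field_simp [(hapos x hx).ne']
      · rw [image_eq_zero_of_notMem_tsupport hx, zero_div, mul_zero]
    have e4 : ((g x : ℂ) - ((a x * f x : ℝ) : ℂ)) = ((a x * (g x / a x - f x) : ℝ) : ℂ) := by
      rw [mul_sub, ← e3]
      push_cast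
      rfl
    rw [e4, Complex.norm_real, Complex.norm_real, norm_mul, mul_comm]
    refine mul_le_mul_of_nonneg_right ?_ (norm_nonneg _)
    rw [Real.norm_eq_abs, abs_sub_comm]
    exact (hfg x).le
  refine h1.trans_lt ?_
  calc ε / (2 * C) * ‖haL.toLp _‖ ≤ ε / (2 * C) * C := by
        refine mul_le_mul_of_nonneg_left ?_ (by positivity)
        rw [hC]; linarith
    _ = ε / 2 := by field_simp
    _ < ε := half_lt_self hε

/-- **[SW]** A nonzero closed bi-invariant subspace of `L²(G)` which is closed under products and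
conjugation is all of `L²(G)`, for `G` noncompact without closed normal subgroups. -/
theorem eq_top [NoncompactSpace G] (hA : InvAlg μ A) (h0 : A ≠ ⊥)
    (hN : ∀ N : Subgroup G, N.Normal → IsClosed (N : Set G) → N = ⊥ ∨ N = ⊤) : A = ⊤ := by
  rw [eq_top_iff]
  intro F _
  have hcl := hA.closed
  rw [← SetLike.mem_coe, ← hcl.closure_eq, Metric.mem_closure_iff]
  intro ε hε
  obtain ⟨f', hf'c, hf'n, hf'1, hf'm⟩ := (Lp.memLp F).exists_hasCompactSupport_eLpNorm_sub_le
    (by norm_num) (ε := ENNReal.ofReal (ε / 2)) (by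
      simp only [ne_eq, ENNReal.ofReal_eq_zero, not_le]; positivity)
  refine ⟨hf'm.toLp f', ?_, ?_⟩
  · have hr1 : Continuous fun x => (f' x).re := Complex.continuous_re.comp hf'1
    have hi1 : Continuous fun x => (f' x).im := Complex.continuous_im.comp hf'1
    have hrc : HasCompactSupport fun x => (f' x).re := hf'c.comp_left Complex.zero_re
    have hic : HasCompactSupport fun x => (f' x).im := hf'c.comp_left Complex.zero_im
    have hrm : MemLp (fun x => (((f' x).re : ℝ) : ℂ)) 2 μ :=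
      (Complex.continuous_ofReal.comp hr1).memLp_of_hasCompactSupport
        (hrc.comp_left Complex.ofReal_zero)
    have him : MemLp (fun x => (((f' x).im : ℝ) : ℂ)) 2 μ :=
      (Complex.continuous_ofReal.comp hi1).memLp_of_hasCompactSupport
        (hic.comp_left Complex.ofReal_zero)
    have e : hf'm.toLp f' = hrm.toLp _ + Complex.I • him.toLp _ := by
      refine Lp.ext ?_
      filter_upwards [hf'm.coeFn_toLp, hrm.coeFn_toLp, him.coeFn_toLp,
        Lp.coeFn_add (hrm.toLp _) (Complex.I • him.toLp _),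
        Lp.coeFn_smul Complex.I (him.toLp _)] with x e1 e2 e3 e4 e5
      rw [e1, e4, Pi.add_apply, e5, Pi.smul_apply, e2, e3, smul_eq_mul, mul_comm,
        Complex.re_add_im]
    rw [e]
    exact A.add_mem (cc_mem hA h0 hN hr1 hrc hrm) (A.smul_mem _ (cc_mem hA h0 hN hi1 hic him))
  · rw [dist_eq_norm, Lp.norm_def]
    have e1 : eLpNorm (⇑(F - hf'm.toLp f')) 2 μ = eLpNorm (⇑F - f') 2 μ := by
      refine eLpNorm_congr_ae ?_
      filter_upwards [Lp.coeFn_sub F (hf'm.toLp f'), hf'm.coeFn_toLp] with y e2 e3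
      rw [e2, Pi.sub_apply, Pi.sub_apply, e3]
    rw [e1]
    exact (ENNReal.toReal_le_of_le_ofReal (by positivity) hf'n).trans_lt (half_lt_self hε)

end grp

end Vale.Agent.P092.H734
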