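import Vale.Agent.P092.H734.FullC
import Vale.Agent.P092.H156.Int
import Vale.Agent.P092.PA.Defs

/-!
P092 (helper734): block [FULL] of Team A in the letters of `PA/Defs.lean`.
-/

set_option linter.all false

open scoped InnerProductSpace Topology ENNReal
open Filter ContinuousLinearMap MeasureTheory
open Vale.Agent.P092.H160 Vale.Agent.P092.H156.Sm

namespace Vale.Agent.P092.H734

theorem el2 {G K : Type*} [MeasurableSpace G] [NormedAddCommGroup K] {μ : Measure G} (f : G → K) :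
    eLpNorm f 2 μ = (∫⁻ x, ‖f x‖ₑ ^ 2 ∂μ) ^ (1 / 2 : ℝ) := by
  have h := eLpNorm_eq_lintegral_rpow_enorm_toReal (f := f) (μ := μ) (p := 2) (by simp) (by simp)
  simpa using h

section

variable {Γ Λ G H K : Type} [Group Γ] [Group Λ] [Group G] [Group H] [Countable Γ]
  [TopologicalSpace G] [TopologicalSpace H] [IsTopologicalGroup G] [IsTopologicalGroup H]
  [MeasurableSpace G] [BorelSpace G] [SecondCountableTopology G]
  [NormedAddCommGroup K] [InnerProductSpace ℂ K] [CompleteSpace K]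
  {ρ : Γ →* (K →L[ℂ] K)} {V : Λ →* (K →L[ℂ] K)} {ω : K} {ι : Γ →* G} {κ : Λ →* H}
  {μ : Measure G}

theorem trIn [μ.IsMulLeftInvariant] (h : RegRep ρ ω) : TrIn ι ρ ω μ := by
  intro c hc hl
  refine ⟨L2.adj h hc hl, ?_⟩
  rw [el2, el2]
  congr 1
  exact nsq_adj h hc.continuous hc.equiv

theorem orIn [μ.IsMulLeftInvariant] [T1Space H] (h : TFrm ρ V ω) (hd : DenseRange κ)
    (hC : ∀ v, v ≠ 1 → ¬ IsOpen ((Subgroup.centralizer {κ v} : Subgroup H) : Set H)) :
    OrIn ι κ ρ V ω μ := by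
  intro b hb ζ
  have ho := Smo.ort h.toFrm hd hC hb hb
  refine ⟨memLp_apply h hb.toFd hb.l2 ho ζ, ?_⟩
  rw [el2, el2, lintegral_sq_apply h hb.toFd hb.l2 ho ζ, ENNReal.mul_rpow_of_nonneg _ _ (by norm_num)]
  rw [mul_comm, nsq]
  refine le_of_eq ?_
  congr 1
  rw [← ENNReal.rpow_natCast, ← ENNReal.rpow_mul]
  norm_num

end

theorem noc_centralizer {Γ G : Type} [Group Γ] [Group G] [TopologicalSpace G] {p : Γ →* G}
    (hp : PA.Noc p) :
    ∀ g : Γ, g ≠ 1 → ¬ IsOpen ((Subgroup.centralizer {p g} : Subgroup G) : Set G) := by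
  intro g hg ho
  obtain ⟨u, hu, hne⟩ := hp g hg _ (ho.mem_nhds (one_mem _))
  have h1 : u ∈ (Subgroup.centralizer {p g} : Subgroup G) := hu
  rw [Subgroup.mem_centralizer_singleton_iff] at h1
  exact hne h1

/-- **Block [FULL]** -/
theorem full_PA {Γ Λ K G H : Type} [Group Γ] [Countable Γ] [Group Λ] [NormedAddCommGroup K]
    [InnerProductSpace ℂ K] [CompleteSpace K] [Group G] [TopologicalSpace G] [IsTopologicalGroup G]
    [LocallyCompactSpace G] [SecondCountableTopology G] [T2Space G] [MeasurableSpace G]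
    [BorelSpace G] [Group H] [TopologicalSpace H] [IsTopologicalGroup H] [T2Space H]
    (D : PA.Pic Γ Λ K) (p : Γ →* G) (q : Λ →* H)
    (μ : Measure G) [μ.IsHaarMeasure] [μ.IsMulRightInvariant] (hp : PA.Pl p) (hq : PA.Pl q)
    [NoncompactSpace G] (hN : ∀ N : Subgroup G, N.Normal → IsClosed (N : Set G) → N = ⊥ ∨ N = ⊤)
    (hne : PA.NeS D p q μ) : PA.Full D p q μ := by
  obtain ⟨b, hb, hb0⟩ := hne
  have hb1 : ∃ x, b x ≠ 0 := by
    by_contra hcon
    push Not at hcon
    exact hb0 (funext hcon)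
  intro ξ hξ
  refine full_orth D.tfrm (trIn D.hρ) (orIn D.tfrm hq.dense (noc_centralizer hq.noc)) hp.dense
    (noc_centralizer hp.noc) hN hb hb1 ξ fun c hc v η hη => ?_
  rw [L2.inner_def, ← hξ c hc v]
  refine integral_congr_ae ?_
  filter_upwards [hη] with x e1
  rw [e1]

end Vale.Agent.P092.H734
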