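import Vale.Agent.P092.H160.Rep

/-!
P092 (helper734), project Q: antiunitary involutions and the conjugation of operators by them.
-/

set_option linter.all false

open scoped InnerProductSpace
open Filter Topology ContinuousLinearMap

namespace Vale.Agent.P092.H734.Q

open Vale.Agent.P092.H160

variable {K : Type} [NormedAddCommGroup K] [InnerProductSpace ℂ K] [CompleteSpace K]

/-- An antiunitary involution. -/
structure AInv (J : K → K) : Prop where
  add : ∀ x y, J (x + y) = J x + J y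
  smul : ∀ (c : ℂ) x, J (c • x) = (starRingEnd ℂ) c • J x
  inner : ∀ x y, ⟪J x, J y⟫_ℂ = ⟪y, x⟫_ℂ
  inv : ∀ x, J (J x) = x

namespace AInv

variable {J : K → K} (hJ : AInv J)

include hJ

theorem norm (x : K) : ‖J x‖ = ‖x‖ := by
  have h1 := hJ.inner x x
  rw [inner_self_eq_norm_sq_to_K, inner_self_eq_norm_sq_to_K] at h1
  have h2 : ‖J x‖ ^ 2 = ‖x‖ ^ 2 := by exact_mod_cast h1
  exact (pow_left_inj₀ (norm_nonneg _) (norm_nonneg _) two_ne_zero).mp h2

theorem zero : J 0 = 0 := by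
  have h := hJ.norm 0
  rw [norm_zero] at h
  exact norm_eq_zero.mp h

theorem neg (x : K) : J (-x) = -J x := by
  have h := hJ.smul (-1) x
  rw [neg_one_smul, map_neg, map_one, neg_one_smul] at h
  exact h

theorem sub (x y : K) : J (x - y) = J x - J y := by
  rw [sub_eq_add_neg, hJ.add, hJ.neg, ← sub_eq_add_neg]

theorem inner_left (x y : K) : ⟪J x, y⟫_ℂ = ⟪J y, x⟫_ℂ := by
  have h := hJ.inner x (J y)
  rw [hJ.inv] at h
  exact h

theorem inner_right (x y : K) : ⟪x, J y⟫_ℂ = ⟪y, J x⟫_ℂ := by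
  have h := hJ.inner (J x) y
  rw [hJ.inv] at h
  exact h

theorem eq_zero_iff (x : K) : J x = 0 ↔ x = 0 := by
  constructor
  · intro h
    have h1 := hJ.inv x
    rw [h, hJ.zero] at h1
    exact h1.symm
  · rintro rfl
    exact hJ.zero

theorem dist (x y : K) : dist (J x) (J y) = dist x y := by
  rw [dist_eq_norm, dist_eq_norm, ← hJ.sub, hJ.norm]

theorem continuous : Continuous J :=
  (Isometry.of_dist_eq hJ.dist).continuous

end AInv

/-- The operator `J T J`. -/
noncomputable def cjo {J : K → K} (hJ : AInv J) (T : K →L[ℂ] K) : K →L[ℂ] K :=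
  LinearMap.mkContinuous
    { toFun := fun v => J (T (J v))
      map_add' := fun u v => by rw [hJ.add, map_add, hJ.add]
      map_smul' := fun c v => by
        rw [hJ.smul, map_smul, hJ.smul, Complex.conj_conj]
        rfl } ‖T‖
    (fun v => by
      change ‖J (T (J v))‖ ≤ _
      rw [hJ.norm]
      refine (T.le_opNorm _).trans ?_
      rw [hJ.norm])

section cjo

variable {J : K → K} (hJ : AInv J)

theorem cjo_apply (T : K →L[ℂ] K) (v : K) : cjo hJ T v = J (T (J v)) := rfl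

theorem cjo_J (T : K →L[ℂ] K) (v : K) : cjo hJ T (J v) = J (T v) := by
  rw [cjo_apply, hJ.inv]

theorem cjo_cjo (T : K →L[ℂ] K) : cjo hJ (cjo hJ T) = T := by
  ext1 v
  rw [cjo_apply, cjo_apply, hJ.inv, hJ.inv]

theorem cjo_inj {S T : K →L[ℂ] K} : cjo hJ S = cjo hJ T ↔ S = T := by
  constructor
  · intro h
    rw [← cjo_cjo hJ S, h, cjo_cjo]
  · rintro rfl; rfl

theorem cjo_mul (S T : K →L[ℂ] K) : cjo hJ (S * T) = cjo hJ S * cjo hJ T := by
  ext1 v
  rw [mul_ap, cjo_apply, cjo_apply, cjo_apply, hJ.inv, mul_ap]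

theorem cjo_one : cjo hJ (1 : K →L[ℂ] K) = 1 := by
  ext1 v
  rw [cjo_apply, one_apply_eq_self, one_apply_eq_self, hJ.inv]

theorem cjo_zero : cjo hJ (0 : K →L[ℂ] K) = 0 := by
  ext1 v
  rw [cjo_apply, zero_apply, zero_apply, hJ.zero]

theorem cjo_add (S T : K →L[ℂ] K) : cjo hJ (S + T) = cjo hJ S + cjo hJ T := by
  ext1 v
  rw [add_apply, cjo_apply, cjo_apply, cjo_apply, add_apply, hJ.add]

theorem cjo_sub (S T : K →L[ℂ] K) : cjo hJ (S - T) = cjo hJ S - cjo hJ T := by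
  ext1 v
  rw [sub_apply, cjo_apply, cjo_apply, cjo_apply, sub_apply, hJ.sub]

theorem cjo_smul (c : ℂ) (T : K →L[ℂ] K) : cjo hJ (c • T) = (starRingEnd ℂ) c • cjo hJ T := by
  ext1 v
  rw [smul_apply, cjo_apply, cjo_apply, smul_apply, hJ.smul]

theorem norm_cjo_le (T : K →L[ℂ] K) : ‖cjo hJ T‖ ≤ ‖T‖ :=
  LinearMap.mkContinuous_norm_le _ (norm_nonneg _) _

theorem norm_cjo (T : K →L[ℂ] K) : ‖cjo hJ T‖ = ‖T‖ := by
  refine le_antisymm (norm_cjo_le hJ T) ?_
  have h := norm_cjo_le hJ (cjo hJ T)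
  rwa [cjo_cjo] at h

theorem adjoint_cjo (T : K →L[ℂ] K) : adjoint (cjo hJ T) = cjo hJ (adjoint T) := by
  rw [eq_comm, ContinuousLinearMap.eq_adjoint_iff]
  intro x y
  rw [cjo_apply, cjo_apply, hJ.inner_left, adjoint_inner_right, hJ.inner_right]

theorem norm_cjo_apply (T : K →L[ℂ] K) (v : K) : ‖cjo hJ T v‖ = ‖T (J v)‖ := by
  rw [cjo_apply, hJ.norm]

/-- If `J A = B J` then `J A J = B`. -/
theorem cjo_eq {A B : K →L[ℂ] K} (h : ∀ v, J (A v) = B (J v)) : cjo hJ A = B := by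
  ext1 v
  rw [cjo_apply, h, hJ.inv]

theorem cjo_comm {A B : K →L[ℂ] K} : cjo hJ A * cjo hJ B = cjo hJ B * cjo hJ A ↔ A * B = B * A := by
  rw [← cjo_mul, ← cjo_mul, cjo_inj]

theorem comm_cjo {A B C : K →L[ℂ] K} (h : ∀ v, J (A v) = B (J v)) :
    cjo hJ C * B = B * cjo hJ C ↔ C * A = A * C := by
  rw [← cjo_eq hJ h, cjo_comm]

theorem comm_cjo' {A B C : K →L[ℂ] K} (h : ∀ v, J (A v) = B (J v)) :
    cjo hJ C * A = A * cjo hJ C ↔ C * B = B * C := by
  have h2 : ∀ v, J (B v) = A (J v) := fun v => by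
    have h3 := h (J v)
    rw [hJ.inv] at h3
    rw [← h3, hJ.inv]
  rw [← cjo_eq hJ h2, cjo_comm]

include hJ in
/-- Transport of a regular representation. -/
theorem regRep_cjo {G : Type} [Group G] {π σ : G →* (K →L[ℂ] K)} {ω : K} (h : RegRep π ω)
    (hω : J ω = ω) (hσ : ∀ g v, J (π g v) = σ g (J v)) : RegRep σ ω where
  adj g := by
    rw [← cjo_eq hJ (hσ g), adjoint_cjo, h.adj, cjo_eq hJ (hσ g⁻¹)]
  norm_one := h.norm_one
  inner_zero g hg := by
    have h1 : σ g ω = J (π g ω) := by rw [hσ, hω]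
    rw [h1, hJ.inner_right, hω, ← inner_conj_symm, h.inner_zero g hg, map_zero]
  total v hv := by
    rw [← hJ.eq_zero_iff]
    refine h.total _ fun g => ?_
    have h1 := hv g
    have h2 : σ g ω = J (π g ω) := by rw [hσ, hω]
    rw [h2, hJ.inner_left, ← inner_conj_symm] at h1
    have h3 := congrArg (starRingEnd ℂ) h1
    rwa [Complex.conj_conj, map_zero] at h3

end cjo

end Vale.Agent.P092.H734.Q
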