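import Vale.Agent.P092.H156.Sm
import Vale.Agent.P092.H325.Comm
import Vale.Agent.P092.H734.SW

/-!
P092 (helper734), [A-FULL]: the smooth fields multiplied by the unitaries `V v` are total in
`L²(G; K)`.
-/

set_option linter.all false

open scoped InnerProductSpace Topology ENNReal
open Filter ContinuousLinearMap MeasureTheory
open Vale.Agent.P092.H160 Vale.Agent.P092.H156.Sm

namespace Vale.Agent.P092.H734

section lam

variable {Γ K : Type} [Group Γ] [NormedAddCommGroup K] [InnerProductSpace ℂ K] [CompleteSpace K]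
  {ρ : Γ →* (K →L[ℂ] K)} {ω : K}

/-- the basis `g ↦ ρ (h g)⁻¹ ω` -/
noncomputable def bh (h : RegRep ρ ω) (k : Γ) : HilbertBasis Γ ℂ K :=
  HilbertBasis.mkOfOrthogonalEqBot (v := fun g => ρ (k * g)⁻¹ ω)
    (h.orthonormal.comp (fun g => (k * g)⁻¹) (fun a b hab => by simpa using hab)) (by
      rw [Submodule.eq_bot_iff]
      intro v hv
      refine h.total v fun g => ?_
      rw [Submodule.mem_orthogonal] at hv
      refine hv _ (Submodule.subset_span ⟨k⁻¹ * g⁻¹, ?_⟩)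
      simp)

theorem bh_apply (h : RegRep ρ ω) (k g : Γ) : bh h k g = ρ (k * g)⁻¹ ω := by
  rw [bh, HilbertBasis.coe_mkOfOrthogonalEqBot]

/-- left multiplication by `k` -/
noncomputable def lu (h : RegRep ρ ω) (k : Γ) : K →L[ℂ] K :=
  ((bh h 1).repr.trans (bh h k).repr.symm).toContinuousLinearEquiv.toContinuousLinearMap

theorem norm_lu (h : RegRep ρ ω) (k : Γ) (u : K) : ‖lu h k u‖ = ‖u‖ :=
  ((bh h 1).repr.trans (bh h k).repr.symm).norm_map u

theorem lu_basis (h : RegRep ρ ω) (k g : Γ) : lu h k (ρ g⁻¹ ω) = ρ (k * g)⁻¹ ω := by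
  classical
  have h1 : ρ g⁻¹ ω = bh h 1 g := by rw [bh_apply, one_mul]
  rw [h1]
  change (bh h k).repr.symm ((bh h 1).repr (bh h 1 g)) = _
  rw [HilbertBasis.repr_self, HilbertBasis.repr_symm_single, bh_apply]

theorem lu_cmm (h : RegRep ρ ω) (k : Γ) : Cmm ρ (lu h k) := by
  intro g
  refine h.ext_op fun s => ?_
  rw [mul_ap, mul_ap, ← mul_ap (ρ g), ← map_mul]
  have h1 := lu_basis h k (g * s)⁻¹
  have h2 := lu_basis h k s⁻¹
  rw [inv_inv] at h1 h2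
  rw [h1, h2, ← mul_ap, ← map_mul]
  congr 2
  group

theorem lu_omega (h : RegRep ρ ω) (k : Γ) : lu h k ω = ρ k⁻¹ ω := by
  have h1 := lu_basis h k 1
  rw [inv_one, map_one, mul_one] at h1
  exact h1

theorem lu_mul (h : RegRep ρ ω) (k l : Γ) : lu h (k * l) = lu h k * lu h l := by
  refine h.ext_cmm (lu_cmm h _) ((lu_cmm h k).mul (lu_cmm h l)) ?_
  rw [mul_ap, lu_omega, lu_omega, lu_basis]

theorem lu_one (h : RegRep ρ ω) : lu h 1 = 1 := by
  refine h.ext_cmm (lu_cmm h _) Cmm.one ?_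
  rw [lu_omega, inv_one, map_one]

/-- conjugation by `u_k` -/
noncomputable def cu (h : RegRep ρ ω) (k : Γ) : K →L[ℂ] K := lu h k * ρ k

theorem norm_cu (h : RegRep ρ ω) (k : Γ) (u : K) : ‖cu h k u‖ = ‖u‖ := by
  rw [cu, mul_ap, norm_lu, h.norm_map]

theorem cu_basis (h : RegRep ρ ω) (k g : Γ) : cu h k (bh h 1 g) = bh h 1 (k * g * k⁻¹) := by
  rw [bh_apply, bh_apply, cu, mul_ap, one_mul, one_mul, ← mul_ap (ρ k), ← map_mul]
  have h1 := lu_basis h k (g * k⁻¹)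
  rw [show (g * k⁻¹)⁻¹ = k * g⁻¹ by group] at h1
  rw [h1]
  congr 2
  group

theorem cu_mul (h : RegRep ρ ω) (k l : Γ) : cu h (k * l) = cu h k * cu h l := by
  rw [cu, cu, cu, lu_mul, map_mul]
  have h1 := lu_cmm h l k
  calc lu h k * lu h l * (ρ k * ρ l) = lu h k * (lu h l * ρ k) * ρ l := by simp only [mul_assoc]
    _ = _ := by rw [h1]; simp only [mul_assoc]

theorem cu_one (h : RegRep ρ ω) : cu h 1 = 1 := by rw [cu, lu_one, map_one, one_mul]

end lam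

section full

variable {Γ Λ G H K : Type} [Group Γ] [Group Λ] [Group G] [Group H]
  [TopologicalSpace G] [TopologicalSpace H] [IsTopologicalGroup G] [IsTopologicalGroup H]
  [SecondCountableTopology G] [MeasurableSpace G] [BorelSpace G]
  [NormedAddCommGroup K] [InnerProductSpace ℂ K] [CompleteSpace K]
  {ρ : Γ →* (K →L[ℂ] K)} {V : Λ →* (K →L[ℂ] K)} {ω : K} {ι : Γ →* G} {κ : Λ →* H}
  {μ : Measure G}

/-- the trace property of fields, as an input -/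
def TrIn (ι : Γ →* G) (ρ : Γ →* (K →L[ℂ] K)) (ω : K) (μ : Measure G) : Prop :=
  ∀ c : G → K →L[ℂ] K, Fd ι ρ c → MemLp (fun x => c x ω) 2 μ →
    MemLp (fun x => adjoint (c x) ω) 2 μ ∧
      eLpNorm (fun x => adjoint (c x) ω) 2 μ = eLpNorm (fun x => c x ω) 2 μ

/-- the orthogonality of smooth fields, as an input -/
def OrIn (ι : Γ →* G) (κ : Λ →* H) (ρ : Γ →* (K →L[ℂ] K)) (V : Λ →* (K →L[ℂ] K)) (ω : K)
    (μ : Measure G) : Prop :=
  ∀ b : G → K →L[ℂ] K, Smo ι κ ρ V ω μ b → ∀ ζ : K, MemLp (fun x => b x ζ) 2 μ ∧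
    eLpNorm (fun x => b x ζ) 2 μ ≤ ‖ζ‖ₑ * eLpNorm (fun x => b x ω) 2 μ

/-- the algebraic span of the fields `b V v` -/
def SF (ι : Γ →* G) (κ : Λ →* H) (ρ : Γ →* (K →L[ℂ] K)) (V : Λ →* (K →L[ℂ] K)) (ω : K)
    (μ : Measure G) : Submodule ℂ (G → K →L[ℂ] K) :=
  Submodule.span ℂ {c | ∃ b v, Smo ι κ ρ V ω μ b ∧ c = fun x => b x * V v}

/-- the vectors of the fields in `SF` -/
def SP (ι : Γ →* G) (κ : Λ →* H) (ρ : Γ →* (K →L[ℂ] K)) (V : Λ →* (K →L[ℂ] K)) (ω : K)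
    (μ : Measure G) : Submodule ℂ (Lp K 2 μ) where
  carrier := {ξ | ∃ c ∈ SF ι κ ρ V ω μ, ξ =ᵐ[μ] fun x => c x ω}
  add_mem' := by
    rintro ξ η ⟨c, hc, h1⟩ ⟨d, hd, h2⟩
    refine ⟨c + d, Submodule.add_mem _ hc hd, ?_⟩
    filter_upwards [Lp.coeFn_add ξ η, h1, h2] with x e1 e2 e3
    rw [e1, Pi.add_apply, e2, e3]
    rfl
  zero_mem' := by
    refine ⟨0, Submodule.zero_mem _, ?_⟩
    filter_upwards [Lp.coeFn_zero K 2 μ] with x e1
    rw [e1]
    rfl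
  smul_mem' := by
    rintro a ξ ⟨c, hc, h1⟩
    refine ⟨a • c, Submodule.smul_mem _ a hc, ?_⟩
    filter_upwards [Lp.coeFn_smul a ξ, h1] with x e1 e2
    rw [e1, Pi.smul_apply, e2]
    rfl

section smo

variable (h : TFrm ρ V ω) (hT : TrIn ι ρ ω μ) (hO : OrIn ι κ ρ V ω μ)

theorem smo_add {a b : G → K →L[ℂ] K} (ha : Smo ι κ ρ V ω μ a) (hb : Smo ι κ ρ V ω μ b) :
    Smo ι κ ρ V ω μ (fun x => a x + b x) where
  toFd := ha.toFd.add hb.toFd
  acont := ha.acont.add hb.acont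
  l2 := by
    have h1 := MemLp.add ha.l2 hb.l2
    exact h1

theorem smo_smul {b : G → K →L[ℂ] K} (c : ℂ) (hb : Smo ι κ ρ V ω μ b) :
    Smo ι κ ρ V ω μ (fun x => c • b x) where
  toFd := hb.toFd.smul c
  acont := ACont.smul c hb.acont
  l2 := by
    have h1 := MemLp.const_smul hb.l2 c
    exact h1

theorem aesm {b : G → K →L[ℂ] K} (hb : Fd ι ρ b) (ζ : K) :
    AEStronglyMeasurable (fun x => b x ζ) μ := (hb.continuous_apply ζ).aestronglyMeasurable

include h in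
theorem smo_mul {a b : G → K →L[ℂ] K} (ha : Smo ι κ ρ V ω μ a) (hb : Smo ι κ ρ V ω μ b) :
    Smo ι κ ρ V ω μ (fun x => a x * b x) where
  toFd := ha.toFd.mul hb.toFd
  acont := ACont.mul h.toFrm ha.acont hb.acont ha.bdd hb.bdd
  l2 := by
    obtain ⟨C, hC0, hC⟩ := ha.toFd.exists_bdd
    refine MemLp.of_le_mul (c := C) hb.l2 (aesm (ha.toFd.mul hb.toFd) ω)
      (Eventually.of_forall fun x => ?_)
    exact ((a x).le_opNorm _).trans (mul_le_mul_of_nonneg_right (hC x) (norm_nonneg _))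

include h hT in
theorem smo_adj {b : G → K →L[ℂ] K} (hb : Smo ι κ ρ V ω μ b) :
    Smo ι κ ρ V ω μ (fun x => adjoint (b x)) where
  toFd := hb.toFd.adj h.reg
  acont := ACont.adj h.toFrm hb.acont
  l2 := (hT b hb.toFd hb.l2).1

include h hO in
theorem smo_conj {b : G → K →L[ℂ] K} (hb : Smo ι κ ρ V ω μ b) (v : Λ) :
    Smo ι κ ρ V ω μ (fun x => V v * b x * V v⁻¹) where
  toFd := hb.toFd.conj h.toFrm v
  acont := ACont.conj h.toFrm hb.acont v
  l2 := by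
    have h1 := (hO b hb (V v⁻¹ ω)).1
    refine MemLp.of_le_mul (c := 1) h1 (aesm (hb.toFd.conj h.toFrm v) ω)
      (Eventually.of_forall fun x => ?_)
    rw [one_mul]
    change ‖V v (b x (V v⁻¹ ω))‖ ≤ _
    rw [h.norm_map]

theorem smo_rt [μ.IsMulRightInvariant] {b : G → K →L[ℂ] K} (hb : Smo ι κ ρ V ω μ b) (z : G) :
    Smo ι κ ρ V ω μ (fun x => b (x * z)) where
  toFd := hb.toFd.rt z
  acont := ACont.rt hb.acont z
  l2 := hb.l2.comp_measurePreserving (measurePreserving_mul_right μ z)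

theorem sf_gen {b : G → K →L[ℂ] K} (hb : Smo ι κ ρ V ω μ b) (v : Λ) :
    (fun x => b x * V v) ∈ SF ι κ ρ V ω μ := Submodule.subset_span ⟨b, v, hb, rfl⟩

include h in
theorem sf_fd {c : G → K →L[ℂ] K} (hc : c ∈ SF ι κ ρ V ω μ) : Fd ι ρ c := by
  induction hc using Submodule.span_induction with
  | mem c hc =>
    obtain ⟨b, v, hb, rfl⟩ := hc
    exact hb.toFd.rm h.reg (h.comm v)
  | zero => exact Fd.zero
  | add c d _ _ h1 h2 => exact h1.add h2
  | smul a c _ h1 => exact h1.smul a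

include hO in
theorem sf_ap {c : G → K →L[ℂ] K} (hc : c ∈ SF ι κ ρ V ω μ) (ζ : K) :
    MemLp (fun x => c x ζ) 2 μ := by
  induction hc using Submodule.span_induction with
  | mem c hc =>
    obtain ⟨b, v, hb, rfl⟩ := hc
    exact (hO b hb (V v ζ)).1
  | zero => exact MemLp.zero
  | add c d _ _ h1 h2 => exact MemLp.add h1 h2
  | smul a c _ h1 => exact MemLp.const_smul h1 a

include h hO in
theorem sf_mul {c d : G → K →L[ℂ] K} (hc : c ∈ SF ι κ ρ V ω μ) (hd : d ∈ SF ι κ ρ V ω μ) :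
    (fun x => c x * d x) ∈ SF ι κ ρ V ω μ := by
  induction hc using Submodule.span_induction with
  | mem c hc =>
    obtain ⟨b, v, hb, rfl⟩ := hc
    induction hd using Submodule.span_induction with
    | mem d hd =>
      obtain ⟨b', w, hb', rfl⟩ := hd
      have h1 := sf_gen (smo_mul h hb (smo_conj h hO hb' v)) (v * w)
      have e : (fun x => b x * V v * (b' x * V w)) =
          fun x => b x * (V v * b' x * V v⁻¹) * V (v * w) := by
        funext x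
        rw [map_mul]
        calc b x * V v * (b' x * V w) = b x * (V v * b' x * 1) * V w := by
              simp only [mul_assoc, one_mul]
          _ = b x * (V v * b' x * (V v⁻¹ * V v)) * V w := by rw [h.toFrm.inv_mul]
          _ = _ := by simp only [mul_assoc]
      rw [e]
      exact h1
    | zero =>
      have e : (fun x => b x * V v * (0 : G → K →L[ℂ] K) x) = 0 := by
        funext x
        simp
      rw [e]
      exact Submodule.zero_mem _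
    | add d d' _ _ h1 h2 =>
      have e : (fun x => b x * V v * (d + d') x) =
          (fun x => b x * V v * d x) + fun x => b x * V v * d' x := by
        funext x
        simp [mul_add]
      rw [e]
      exact Submodule.add_mem _ h1 h2
    | smul a d _ h1 =>
      have e : (fun x => b x * V v * (a • d) x) = a • fun x => b x * V v * d x := by
        funext x
        simp
      rw [e]
      exact Submodule.smul_mem _ a h1
  | zero =>
    have e : (fun x => (0 : G → K →L[ℂ] K) x * d x) = 0 := by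
      funext x
      simp
    rw [e]
    exact Submodule.zero_mem _
  | add c c' _ _ h1 h2 =>
    have e : (fun x => (c + c') x * d x) = (fun x => c x * d x) + fun x => c' x * d x := by
      funext x
      simp [add_mul]
    rw [e]
    exact Submodule.add_mem _ h1 h2
  | smul a c _ h1 =>
    have e : (fun x => (a • c) x * d x) = a • fun x => c x * d x := by
      funext x
      simp
    rw [e]
    exact Submodule.smul_mem _ a h1

include h hT hO in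
theorem sf_adj {c : G → K →L[ℂ] K} (hc : c ∈ SF ι κ ρ V ω μ) :
    (fun x => adjoint (c x)) ∈ SF ι κ ρ V ω μ := by
  induction hc using Submodule.span_induction with
  | mem c hc =>
    obtain ⟨b, v, hb, rfl⟩ := hc
    have h1 := sf_gen (smo_conj h hO (smo_adj h hT hb) v⁻¹) v⁻¹
    have e : (fun x => adjoint (b x * V v)) =
        fun x => V v⁻¹ * adjoint (b x) * V v⁻¹⁻¹ * V v⁻¹ := by
      funext x
      rw [inv_inv]
      change star (b x * V v) = _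
      rw [star_mul, star_eq_adjoint (V v), h.adj, mul_assoc, mul_assoc, h.toFrm.mul_inv, mul_one]
      rfl
    rw [e]
    exact h1
  | zero =>
    have e : (fun x => adjoint ((0 : G → K →L[ℂ] K) x)) = 0 := by
      funext x
      simp
    rw [e]
    exact Submodule.zero_mem _
  | add c c' _ _ h1 h2 =>
    have e : (fun x => adjoint ((c + c') x)) =
        (fun x => adjoint (c x)) + fun x => adjoint (c' x) := by
      funext x
      simp
    rw [e]
    exact Submodule.add_mem _ h1 h2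
  | smul a c _ h1 =>
    have e : (fun x => adjoint ((a • c) x)) = (starRingEnd ℂ) a • fun x => adjoint (c x) := by
      funext x
      change star (a • c x) = (starRingEnd ℂ) a • star (c x)
      rw [star_smul]
      rfl
    rw [e]
    exact Submodule.smul_mem _ _ h1

include h hO in
theorem sf_lm {c : G → K →L[ℂ] K} (hc : c ∈ SF ι κ ρ V ω μ) (w : Λ) :
    (fun x => V w * c x) ∈ SF ι κ ρ V ω μ := by
  induction hc using Submodule.span_induction with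
  | mem c hc =>
    obtain ⟨b, v, hb, rfl⟩ := hc
    have h1 := sf_gen (smo_conj h hO hb w) (w * v)
    have e : (fun x => V w * (b x * V v)) = fun x => V w * b x * V w⁻¹ * V (w * v) := by
      funext x
      rw [map_mul]
      calc V w * (b x * V v) = V w * b x * 1 * V v := by simp only [mul_assoc, one_mul]
        _ = V w * b x * (V w⁻¹ * V w) * V v := by rw [h.toFrm.inv_mul]
        _ = _ := by simp only [mul_assoc]
    rw [e]
    exact h1
  | zero =>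
    have e : (fun x => V w * (0 : G → K →L[ℂ] K) x) = 0 := by
      funext x
      simp
    rw [e]
    exact Submodule.zero_mem _
  | add c c' _ _ h1 h2 =>
    have e : (fun x => V w * (c + c') x) = (fun x => V w * c x) + fun x => V w * c' x := by
      funext x
      simp [mul_add]
    rw [e]
    exact Submodule.add_mem _ h1 h2
  | smul a c _ h1 =>
    have e : (fun x => V w * (a • c) x) = a • fun x => V w * c x := by
      funext x
      simp
    rw [e]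
    exact Submodule.smul_mem _ a h1

theorem sf_rm {c : G → K →L[ℂ] K} (hc : c ∈ SF ι κ ρ V ω μ) (w : Λ) :
    (fun x => c x * V w) ∈ SF ι κ ρ V ω μ := by
  induction hc using Submodule.span_induction with
  | mem c hc =>
    obtain ⟨b, v, hb, rfl⟩ := hc
    have h1 := sf_gen hb (v * w)
    have e : (fun x => b x * V v * V w) = fun x => b x * V (v * w) := by
      funext x
      rw [map_mul, mul_assoc]
    rw [e]
    exact h1
  | zero =>
    have e : (fun x => (0 : G → K →L[ℂ] K) x * V w) = 0 := by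
      funext x
      simp
    rw [e]
    exact Submodule.zero_mem _
  | add c c' _ _ h1 h2 =>
    have e : (fun x => (c + c') x * V w) = (fun x => c x * V w) + fun x => c' x * V w := by
      funext x
      simp [add_mul]
    rw [e]
    exact Submodule.add_mem _ h1 h2
  | smul a c _ h1 =>
    have e : (fun x => (a • c) x * V w) = a • fun x => c x * V w := by
      funext x
      simp
    rw [e]
    exact Submodule.smul_mem _ a h1

theorem sf_rt [μ.IsMulRightInvariant] {c : G → K →L[ℂ] K} (hc : c ∈ SF ι κ ρ V ω μ) (z : G) :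
    (fun x => c (x * z)) ∈ SF ι κ ρ V ω μ := by
  induction hc using Submodule.span_induction with
  | mem c hc =>
    obtain ⟨b, v, hb, rfl⟩ := hc
    exact sf_gen (smo_rt hb z) v
  | zero => exact Submodule.zero_mem _
  | add c c' _ _ h1 h2 => exact Submodule.add_mem _ h1 h2
  | smul a c _ h1 => exact Submodule.smul_mem _ a h1

/-! ### Vectors -/

/-- the linear span of the `V v` -/
def SV (V : Λ →* (K →L[ℂ] K)) : Submodule ℂ (K →L[ℂ] K) := Submodule.span ℂ (Set.range V)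

theorem sf_rp {c : G → K →L[ℂ] K} (hc : c ∈ SF ι κ ρ V ω μ) {p : K →L[ℂ] K} (hp : p ∈ SV V) :
    (fun x => c x * p) ∈ SF ι κ ρ V ω μ := by
  induction hp using Submodule.span_induction with
  | mem p hp =>
    obtain ⟨w, rfl⟩ := hp
    exact sf_rm hc w
  | zero =>
    have e : (fun x => c x * (0 : K →L[ℂ] K)) = 0 := by
      funext x
      simp
    rw [e]
    exact Submodule.zero_mem _
  | add p q _ _ h1 h2 =>
    have e : (fun x => c x * (p + q)) = (fun x => c x * p) + fun x => c x * q := by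
      funext x
      simp [mul_add]
    rw [e]
    exact Submodule.add_mem _ h1 h2
  | smul a p _ h1 =>
    have e : (fun x => c x * (a • p)) = a • fun x => c x * p := by
      funext x
      simp
    rw [e]
    exact Submodule.smul_mem _ a h1

include h hO in
theorem sf_lp {c : G → K →L[ℂ] K} (hc : c ∈ SF ι κ ρ V ω μ) {p : K →L[ℂ] K} (hp : p ∈ SV V) :
    (fun x => p * c x) ∈ SF ι κ ρ V ω μ := by
  induction hp using Submodule.span_induction with
  | mem p hp =>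
    obtain ⟨w, rfl⟩ := hp
    exact sf_lm h hO hc w
  | zero =>
    have e : (fun x => (0 : K →L[ℂ] K) * c x) = 0 := by
      funext x
      simp
    rw [e]
    exact Submodule.zero_mem _
  | add p q _ _ h1 h2 =>
    have e : (fun x => (p + q) * c x) = (fun x => p * c x) + fun x => q * c x := by
      funext x
      simp [add_mul]
    rw [e]
    exact Submodule.add_mem _ h1 h2
  | smul a p _ h1 =>
    have e : (fun x => (a • p) * c x) = a • fun x => p * c x := by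
      funext x
      simp
    rw [e]
    exact Submodule.smul_mem _ a h1

include h in
theorem sv_cmm {p : K →L[ℂ] K} (hp : p ∈ SV V) : Cmm ρ p := by
  induction hp using Submodule.span_induction with
  | mem p hp =>
    obtain ⟨w, rfl⟩ := hp
    exact h.comm w
  | zero => intro g; rw [zero_mul, mul_zero]
  | add p q _ _ h1 h2 => exact h1.add h2
  | smul a p _ h1 => exact h1.smul a

include h in
theorem sv_dense (ζ : K) {ε : ℝ} (hε : 0 < ε) : ∃ p ∈ SV V, ‖ζ - p ω‖ ≤ ε := by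
  have h1 : (Submodule.span ℂ (Set.range fun v => V v ω)).topologicalClosure = ⊤ := by
    rw [Submodule.topologicalClosure_eq_top_iff, Submodule.eq_bot_iff]
    intro u hu
    refine h.total u fun v => ?_
    rw [Submodule.mem_orthogonal] at hu
    exact hu _ (Submodule.subset_span ⟨v, rfl⟩)
  have h2 : ζ ∈ (Submodule.span ℂ (Set.range fun v => V v ω)).topologicalClosure := by
    rw [h1]; trivial
  have h3 : ζ ∈ closure ((Submodule.span ℂ (Set.range fun v => V v ω) : Submodule ℂ K) : Set K) := h2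
  rw [Metric.mem_closure_iff] at h3
  obtain ⟨u, hu, hd⟩ := h3 ε hε
  have h4 : ∀ u ∈ Submodule.span ℂ (Set.range fun v => V v ω), ∃ p ∈ SV V, p ω = u := by
    intro u hu
    induction hu using Submodule.span_induction with
    | mem u hu =>
      obtain ⟨v, rfl⟩ := hu
      exact ⟨V v, Submodule.subset_span ⟨v, rfl⟩, rfl⟩
    | zero => exact ⟨0, Submodule.zero_mem _, rfl⟩
    | add u w _ _ h1 h2 =>
      obtain ⟨p, hp, rfl⟩ := h1
      obtain ⟨q, hq, rfl⟩ := h2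
      exact ⟨p + q, Submodule.add_mem _ hp hq, rfl⟩
    | smul a u _ h1 =>
      obtain ⟨p, hp, rfl⟩ := h1
      exact ⟨a • p, Submodule.smul_mem _ a hp, rfl⟩
  obtain ⟨p, hp, rfl⟩ := h4 u hu
  refine ⟨p, hp, ?_⟩
  rw [dist_eq_norm] at hd
  exact hd.le

/-- closure of the smooth vectors -/
noncomputable def PP (ι : Γ →* G) (κ : Λ →* H) (ρ : Γ →* (K →L[ℂ] K)) (V : Λ →* (K →L[ℂ] K)) (ω : K)
    (μ : Measure G) : Submodule ℂ (Lp K 2 μ) := (SP ι κ ρ V ω μ).topologicalClosure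

theorem norm_sub_le_of {ξ η : Lp K 2 μ} {f : G → K} {ε : ℝ} (hε : 0 ≤ ε)
    (hη : η =ᵐ[μ] f) (hd : eLpNorm (fun x => ξ x - f x) 2 μ ≤ ENNReal.ofReal ε) : ‖ξ - η‖ ≤ ε := by
  rw [Lp.norm_def]
  have e1 : eLpNorm (⇑(ξ - η)) 2 μ = eLpNorm (fun x => ξ x - f x) 2 μ := by
    refine eLpNorm_congr_ae ?_
    filter_upwards [Lp.coeFn_sub ξ η, hη] with y e2 e3
    rw [e2, Pi.sub_apply, e3]
  rw [e1]
  exact ENNReal.toReal_le_of_le_ofReal hε hd

theorem eLpNorm_sub_le_of {ξ η : Lp K 2 μ} {f : G → K} {ε : ℝ} (hη : η =ᵐ[μ] f)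
    (hd : ‖ξ - η‖ ≤ ε) : eLpNorm (fun x => ξ x - f x) 2 μ ≤ ENNReal.ofReal ε := by
  have e1 : eLpNorm (fun x => ξ x - f x) 2 μ = eLpNorm (⇑(ξ - η)) 2 μ := by
    refine eLpNorm_congr_ae ?_
    filter_upwards [Lp.coeFn_sub ξ η, hη] with y e2 e3
    rw [e2, Pi.sub_apply, e3]
  rw [e1, ← ENNReal.ofReal_toReal (Lp.eLpNorm_ne_top (ξ - η)), ← Lp.norm_def]
  exact ENNReal.ofReal_le_ofReal hd

include hO in
theorem pp_iff {ξ : Lp K 2 μ} : ξ ∈ PP ι κ ρ V ω μ ↔ ∀ ε : ℝ, 0 < ε → ∃ c ∈ SF ι κ ρ V ω μ,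
    eLpNorm (fun x => ξ x - c x ω) 2 μ ≤ ENNReal.ofReal ε := by
  constructor
  · intro hξ ε hε
    have h3 : ξ ∈ closure ((SP ι κ ρ V ω μ : Submodule ℂ (Lp K 2 μ)) : Set (Lp K 2 μ)) := hξ
    rw [Metric.mem_closure_iff] at h3
    obtain ⟨η, ⟨c, hc, hη⟩, hd⟩ := h3 ε hε
    rw [dist_eq_norm] at hd
    exact ⟨c, hc, eLpNorm_sub_le_of hη hd.le⟩
  · intro hξ
    change ξ ∈ closure ((SP ι κ ρ V ω μ : Submodule ℂ (Lp K 2 μ)) : Set (Lp K 2 μ))
    rw [Metric.mem_closure_iff]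
    intro ε hε
    obtain ⟨c, hc, hd⟩ := hξ (ε / 2) (half_pos hε)
    have hm := sf_ap hO hc ω
    refine ⟨hm.toLp _, ⟨c, hc, hm.coeFn_toLp⟩, ?_⟩
    rw [dist_eq_norm]
    exact (norm_sub_le_of (half_pos hε).le hm.coeFn_toLp hd).trans_lt (half_lt_self hε)

theorem pp_closed : IsClosed (PP ι κ ρ V ω μ : Set (Lp K 2 μ)) :=
  Submodule.isClosed_topologicalClosure _

/-- a vector which is close to elements of `PP` is in `PP` -/
theorem pp_of_near {ξ : Lp K 2 μ} (hξ : ∀ ε : ℝ, 0 < ε → ∃ η ∈ PP ι κ ρ V ω μ, ‖ξ - η‖ ≤ ε) :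
    ξ ∈ PP ι κ ρ V ω μ := by
  have hcl := pp_closed (ι := ι) (κ := κ) (ρ := ρ) (V := V) (ω := ω) (μ := μ)
  rw [← SetLike.mem_coe, ← hcl.closure_eq, Metric.mem_closure_iff]
  intro ε hε
  obtain ⟨η, hη, hd⟩ := hξ (ε / 2) (half_pos hε)
  exact ⟨η, hη, by rw [dist_eq_norm]; exact hd.trans_lt (half_lt_self hε)⟩

/-- general induction: a linear family of vectors -/
theorem pp_lin (F : (G → K →L[ℂ] K) → G → K) (hadd : ∀ c d x, F (c + d) x = F c x + F d x)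
    (hsm : ∀ (a : ℂ) c x, F (a • c) x = a • F c x) (hz : ∀ x, F 0 x = 0)
    (hm : ∀ c ∈ SF ι κ ρ V ω μ, MemLp (F c) 2 μ)
    (hg : ∀ b v, Smo ι κ ρ V ω μ b → ∀ ξ : Lp K 2 μ, ξ =ᵐ[μ] F (fun x => b x * V v) →
      ξ ∈ PP ι κ ρ V ω μ)
    {c : G → K →L[ℂ] K} (hc : c ∈ SF ι κ ρ V ω μ) :
    ∀ ξ : Lp K 2 μ, ξ =ᵐ[μ] F c → ξ ∈ PP ι κ ρ V ω μ := by
  induction hc using Submodule.span_induction with
  | mem c hc =>
    obtain ⟨b, v, hb, rfl⟩ := hc
    exact hg b v hb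
  | zero =>
    intro ξ hξ
    have e : ξ = 0 := by
      refine Lp.ext ?_
      filter_upwards [hξ, Lp.coeFn_zero K 2 μ] with x e1 e2
      rw [e1, e2, hz]
      rfl
    rw [e]
    exact Submodule.zero_mem _
  | add c d hc hd h1 h2 =>
    intro ξ hξ
    have e : ξ = (hm c hc).toLp _ + (hm d hd).toLp _ := by
      refine Lp.ext ?_
      filter_upwards [hξ, Lp.coeFn_add ((hm c hc).toLp _) ((hm d hd).toLp _),
        (hm c hc).coeFn_toLp, (hm d hd).coeFn_toLp] with x e1 e2 e3 e4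
      rw [e1, e2, Pi.add_apply, e3, e4, hadd]
    rw [e]
    exact Submodule.add_mem _ (h1 _ (hm c hc).coeFn_toLp) (h2 _ (hm d hd).coeFn_toLp)
  | smul a c hc h1 =>
    intro ξ hξ
    have e : ξ = a • (hm c hc).toLp _ := by
      refine Lp.ext ?_
      filter_upwards [hξ, Lp.coeFn_smul a ((hm c hc).toLp _), (hm c hc).coeFn_toLp] with x e1 e2 e3
      rw [e1, e2, Pi.smul_apply, e3, hsm]
    rw [e]
    exact Submodule.smul_mem _ a (h1 _ (hm c hc).coeFn_toLp)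

include h hO in
theorem ap_mem {b : G → K →L[ℂ] K} (hb : Smo ι κ ρ V ω μ b) (ζ : K) (ξ : Lp K 2 μ)
    (hξ : ξ =ᵐ[μ] fun x => b x ζ) : ξ ∈ PP ι κ ρ V ω μ := by
  rw [pp_iff hO]
  intro ε hε
  have hfin : eLpNorm (fun x => b x ω) 2 μ ≠ ∞ := hb.l2.eLpNorm_ne_top
  obtain ⟨C, hC⟩ : ∃ C : ℝ, C = (eLpNorm (fun x => b x ω) 2 μ).toReal + 1 := ⟨_, rfl⟩
  have hC0 : 0 < C := by rw [hC]; positivity
  obtain ⟨p, hp, hpd⟩ := sv_dense h ζ (ε := ε / C) (by positivity)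
  have hb1 : b ∈ SF ι κ ρ V ω μ := by
    have h1 := sf_gen hb (1 : Λ)
    simpa using h1
  refine ⟨_, sf_rp hb1 hp, ?_⟩
  have e1 : eLpNorm (fun x => ξ x - (b x * p) ω) 2 μ = eLpNorm (fun x => b x (ζ - p ω)) 2 μ := by
    refine eLpNorm_congr_ae ?_
    filter_upwards [hξ] with x hx
    rw [hx, map_sub]
    rfl
  rw [e1]
  refine ((hO b hb (ζ - p ω)).2).trans ?_
  calc ‖ζ - p ω‖ₑ * eLpNorm (fun x => b x ω) 2 μ ≤ ENNReal.ofReal (ε / C) * ENNReal.ofReal C := by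
        gcongr
        · rw [← ofReal_norm]
          exact ENNReal.ofReal_le_ofReal hpd
        · rw [← ENNReal.ofReal_toReal hfin]
          exact ENNReal.ofReal_le_ofReal (by rw [hC]; linarith)
    _ = ENNReal.ofReal ε := by
        rw [← ENNReal.ofReal_mul (by positivity)]
        congr 1
        field_simp

include h hO in
theorem ap_mem' {c : G → K →L[ℂ] K} (hc : c ∈ SF ι κ ρ V ω μ) (ζ : K) (ξ : Lp K 2 μ)
    (hξ : ξ =ᵐ[μ] fun x => c x ζ) : ξ ∈ PP ι κ ρ V ω μ := by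
  refine pp_lin (fun c x => c x ζ) (fun _ _ _ => rfl) (fun _ _ _ => rfl) (fun _ => rfl)
    (fun c hc => sf_ap hO hc ζ) (fun b v hb ξ hξ => ?_) hc ξ hξ
  exact ap_mem h hO hb (V v ζ) ξ hξ

include h hT hO in
theorem lm_mem {m : K →L[ℂ] K} (hm : Cmm ρ m) {c : G → K →L[ℂ] K} (hc : c ∈ SF ι κ ρ V ω μ)
    (ξ : Lp K 2 μ) (hξ : ξ =ᵐ[μ] fun x => m (c x ω)) : ξ ∈ PP ι κ ρ V ω μ := by
  refine pp_lin (fun c x => m (c x ω)) (fun c d x => by simp) (fun a c x => by simp)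
    (fun x => by simp) (fun c hc => ?_) (fun b v hb ξ hξ => ?_) hc ξ hξ
  · exact (sf_ap hO hc ω).continuousLinearMap_comp m
  · rw [pp_iff hO]
    intro ε hε
    have hb' := smo_adj h hT hb
    have hfin : eLpNorm (fun x => adjoint (b x) ω) 2 μ ≠ ∞ := hb'.l2.eLpNorm_ne_top
    obtain ⟨C, hC⟩ : ∃ C : ℝ, C = (eLpNorm (fun x => adjoint (b x) ω) 2 μ).toReal + 1 := ⟨_, rfl⟩
    have hC0 : 0 < C := by rw [hC]; positivity
    obtain ⟨p, hp, hpd⟩ := sv_dense h (m ω) (ε := ε / C) (by positivity)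
    refine ⟨_, sf_lp h hO (sf_gen hb v) hp, ?_⟩
    have hmp : Cmm ρ (m - p) := hm.sub (sv_cmm h hp)
    have hfd : Fd ι ρ (fun x => (m - p) * (b x * V v)) :=
      (hb.toFd.rm h.reg (h.comm v)).lm h.reg hmp
    have hl2 : MemLp (fun x => ((m - p) * (b x * V v)) ω) 2 μ :=
      (sf_ap hO (sf_gen hb v) ω).continuousLinearMap_comp (m - p)
    have e1 : eLpNorm (fun x => ξ x - (p * (b x * V v)) ω) 2 μ =
        eLpNorm (fun x => ((m - p) * (b x * V v)) ω) 2 μ := by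
      refine eLpNorm_congr_ae ?_
      filter_upwards [hξ] with x hx
      rw [hx, sub_mul]
      rfl
    rw [e1, ← (hT _ hfd hl2).2]
    have e2 : ∀ x, ‖adjoint ((m - p) * (b x * V v)) ω‖ = ‖adjoint (b x) (adjoint (m - p) ω)‖ := by
      intro x
      have e3 : adjoint ((m - p) * (b x * V v)) = V v⁻¹ * (adjoint (b x) * adjoint (m - p)) := by
        change star ((m - p) * (b x * V v)) = _
        rw [star_mul, star_mul, star_eq_adjoint (V v), h.adj, mul_assoc]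
        rfl
      rw [e3, mul_ap, h.norm_map]
      rfl
    have e4 : eLpNorm (fun x => adjoint ((m - p) * (b x * V v)) ω) 2 μ =
        eLpNorm (fun x => adjoint (b x) (adjoint (m - p) ω)) 2 μ :=
      eLpNorm_congr_norm_ae (Eventually.of_forall fun x => e2 x)
    rw [e4]
    refine ((hO _ hb' (adjoint (m - p) ω)).2).trans ?_
    have e5 : ‖adjoint (m - p) ω‖ ≤ ε / C := by
      rw [h.reg.norm_adjoint hmp]
      exact hpd
    calc ‖adjoint (m - p) ω‖ₑ * eLpNorm (fun x => adjoint (b x) ω) 2 μ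
        ≤ ENNReal.ofReal (ε / C) * ENNReal.ofReal C := by
          gcongr
          · rw [← ofReal_norm]
            exact ENNReal.ofReal_le_ofReal e5
          · rw [← ENNReal.ofReal_toReal hfin]
            exact ENNReal.ofReal_le_ofReal (by rw [hC]; linarith)
      _ = ENNReal.ofReal ε := by
          rw [← ENNReal.ofReal_mul (by positivity)]
          congr 1
          field_simp

end smo

/-! ### Operators preserving `PP` -/

theorem pp_map (T : Lp K 2 μ →L[ℂ] Lp K 2 μ)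
    (hT' : ∀ c ∈ SF ι κ ρ V ω μ, ∀ η : Lp K 2 μ, η =ᵐ[μ] (fun x => c x ω) →
      T η ∈ PP ι κ ρ V ω μ) {ξ : Lp K 2 μ} (hξ : ξ ∈ PP ι κ ρ V ω μ) : T ξ ∈ PP ι κ ρ V ω μ := by
  have hcl := pp_closed (ι := ι) (κ := κ) (ρ := ρ) (V := V) (ω := ω) (μ := μ)
  have h1 : ξ ∈ closure ((SP ι κ ρ V ω μ : Submodule ℂ (Lp K 2 μ)) : Set (Lp K 2 μ)) := hξ
  have h2 : T ξ ∈ closure ((PP ι κ ρ V ω μ : Submodule ℂ (Lp K 2 μ)) : Set (Lp K 2 μ)) := by
    refine map_mem_closure T.continuous h1 ?_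
    rintro η ⟨c, hc, hη⟩
    exact hT' c hc η hη
  rwa [hcl.closure_eq] at h2

theorem pp_lm (h : TFrm ρ V ω) (hT : TrIn ι ρ ω μ) (hO : OrIn ι κ ρ V ω μ) {m : K →L[ℂ] K}
    (hm : Cmm ρ m) {ξ : Lp K 2 μ} (hξ : ξ ∈ PP ι κ ρ V ω μ) :
    m.compLpL 2 μ ξ ∈ PP ι κ ρ V ω μ := by
  refine pp_map _ (fun c hc η hη => ?_) hξ
  refine lm_mem h hT hO hm hc _ ?_
  filter_upwards [m.coeFn_compLpL η, hη] with x e1 e2
  rw [e1, e2]

theorem cjL_ae [μ.IsMulLeftInvariant] (A : Γ → (K →L[ℂ] K)) (γ : Γ) (ξ : Lp K 2 μ) :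
    H325.cjL μ ι A γ ξ =ᵐ[μ] fun x => A γ (ξ ((ι γ)⁻¹ * x)) := by
  refine (ContinuousLinearMap.coeFn_compLpL _ _).trans ?_
  filter_upwards [H325.tl_ae μ (ι γ) ξ] with x hx
  exact congrArg (A γ) hx

theorem pp_rr [μ.IsMulLeftInvariant] (h : TFrm ρ V ω) (hO : OrIn ι κ ρ V ω μ) (γ : Γ)
    {ξ : Lp K 2 μ} (hξ : ξ ∈ PP ι κ ρ V ω μ) :
    H325.cjL μ ι (fun g => ρ g) γ ξ ∈ PP ι κ ρ V ω μ := by
  refine pp_map _ (fun c hc η hη => ?_) hξ
  refine ap_mem' h hO hc (ρ γ ω) _ ?_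
  have hmp := (measurePreserving_mul_left μ (ι γ)⁻¹).quasiMeasurePreserving.ae hη
  filter_upwards [cjL_ae (ι := ι) (fun g => ρ g) γ η, hmp] with x e1 e2
  rw [e1, e2]
  have e3 := (sf_fd h hc).equiv γ ((ι γ)⁻¹ * x)
  rw [mul_inv_cancel_left] at e3
  rw [e3, mul_ap, mul_ap, h.reg.inv_apply]

theorem pp_cj [μ.IsMulLeftInvariant] (h : TFrm ρ V ω) (hT : TrIn ι ρ ω μ)
    (hO : OrIn ι κ ρ V ω μ) (γ : Γ) {ξ : Lp K 2 μ} (hξ : ξ ∈ PP ι κ ρ V ω μ) :
    H325.cjL μ ι (cu h.reg) γ ξ ∈ PP ι κ ρ V ω μ := by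
  have e : H325.cjL μ ι (cu h.reg) γ ξ = (lu h.reg γ).compLpL 2 μ
      (H325.cjL μ ι (fun g => ρ g) γ ξ) := by
    refine Lp.ext ?_
    filter_upwards [cjL_ae (ι := ι) (cu h.reg) γ ξ, cjL_ae (ι := ι) (fun g => ρ g) γ ξ,
      (lu h.reg γ).coeFn_compLpL (H325.cjL μ ι (fun g => ρ g) γ ξ)] with x e1 e2 e3
    rw [e1, e3, e2]
    rfl
  rw [e]
  exact pp_lm h hT hO (lu_cmm h.reg γ) (pp_rr h hO γ hξ)

theorem pp_tr [μ.IsMulRightInvariant] (y : G) (hO : OrIn ι κ ρ V ω μ) {ξ : Lp K 2 μ}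
    (hξ : ξ ∈ PP ι κ ρ V ω μ) : H325.tr μ y ξ ∈ PP ι κ ρ V ω μ := by
  refine pp_map _ (fun c hc η hη => ?_) hξ
  refine Submodule.le_topologicalClosure _ ⟨_, sf_rt hc y, ?_⟩
  have hmp := (measurePreserving_mul_right μ y).quasiMeasurePreserving.ae hη
  filter_upwards [H325.tr_ae μ y η, hmp] with x e1 e2
  rw [e1, e2]

theorem inner_compLpL (m : K →L[ℂ] K) (ξ η : Lp K 2 μ) :
    ⟪m.compLpL 2 μ ξ, η⟫_ℂ = ⟪ξ, (adjoint m).compLpL 2 μ η⟫_ℂ := by
  rw [L2.inner_def, L2.inner_def]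
  refine integral_congr_ae ?_
  filter_upwards [m.coeFn_compLpL ξ, (adjoint m).coeFn_compLpL η] with x e1 e2
  rw [e1, e2, adjoint_inner_right]

theorem inner_of_isom {E : Type*} [NormedAddCommGroup E] [InnerProductSpace ℂ E]
    {U U' : E →L[ℂ] E} (hU : ∀ x, ‖U x‖ = ‖x‖) (hUU : ∀ x, U (U' x) = x) (x y : E) :
    ⟪U x, y⟫_ℂ = ⟪x, U' y⟫_ℂ := by
  have h1 := (⟨(U : E →ₗ[ℂ] E), hU⟩ : E →ₗᵢ[ℂ] E).inner_map_map x (U' y)
  have h2 : ⟪U x, U (U' y)⟫_ℂ = ⟪x, U' y⟫_ℂ := h1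
  rwa [hUU] at h2

theorem proj_comm {E : Type*} [NormedAddCommGroup E] [InnerProductSpace ℂ E]
    (P : Submodule ℂ E) [P.HasOrthogonalProjection] {U U' : E →L[ℂ] E}
    (hUU : ∀ x y, ⟪U x, y⟫_ℂ = ⟪x, U' y⟫_ℂ) (hU : ∀ x ∈ P, U x ∈ P) (hU' : ∀ x ∈ P, U' x ∈ P)
    (x : E) : P.starProjection (U x) = U (P.starProjection x) := by
  refine (Submodule.eq_starProjection_of_mem_of_inner_eq_zero
    (hU _ (Submodule.starProjection_apply_mem P x)) fun w hw => ?_)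
  rw [← map_sub, hUU]
  exact Submodule.starProjection_inner_eq_zero x _ (hU' w hw)

theorem norm_compLpL {m : K →L[ℂ] K} (hm : ∀ u, ‖m u‖ = ‖u‖) (ξ : Lp K 2 μ) :
    ‖m.compLpL 2 μ ξ‖ = ‖ξ‖ := by
  rw [Lp.norm_def, Lp.norm_def]
  congr 1
  refine eLpNorm_congr_norm_ae ?_
  filter_upwards [m.coeFn_compLpL ξ] with x e1
  rw [e1, hm]

theorem norm_cjL [μ.IsMulLeftInvariant] {A : Γ → (K →L[ℂ] K)} (hA : ∀ g u, ‖A g u‖ = ‖u‖) (γ : Γ)
    (ξ : Lp K 2 μ) : ‖H325.cjL μ ι A γ ξ‖ = ‖ξ‖ := by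
  change ‖(A γ).compLpL 2 μ (H325.tl μ (ι γ) ξ)‖ = ‖ξ‖
  rw [norm_compLpL (hA γ), H325.norm_tl]

theorem cjL_inv [μ.IsMulLeftInvariant] {A : Γ → (K →L[ℂ] K)} (hm : ∀ g h, A (g * h) = A g * A h)
    (h1 : A 1 = 1) (γ : Γ) (ξ : Lp K 2 μ) :
    H325.cjL μ ι A γ (H325.cjL μ ι A γ⁻¹ ξ) = ξ := by
  refine Lp.ext ?_
  have h2 := (measurePreserving_mul_left μ (ι γ)⁻¹).quasiMeasurePreserving.ae
    (cjL_ae (ι := ι) A γ⁻¹ ξ)
  filter_upwards [cjL_ae (ι := ι) A γ (H325.cjL μ ι A γ⁻¹ ξ), h2] with x e1 e2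
  rw [e1, e2, ← mul_ap, ← hm, mul_inv_cancel, h1]
  simp

theorem tr_inv [μ.IsMulRightInvariant] (y : G) (ξ : Lp K 2 μ) :
    H325.tr μ y (H325.tr μ y⁻¹ ξ) = ξ := by
  refine Lp.ext ?_
  have h2 := (measurePreserving_mul_right μ y).quasiMeasurePreserving.ae (H325.tr_ae μ y⁻¹ ξ)
  filter_upwards [H325.tr_ae μ y (H325.tr μ y⁻¹ ξ), h2] with x e1 e2
  rw [e1, e2]
  simp

/-! ### The subspace of functions -/

theorem inner_emb [Countable Γ] (b : HilbertBasis Γ ℂ K) (ξ : Lp K 2 μ) (f : Lp ℂ 2 μ) :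
    ⟪ξ, H325.emb μ b f⟫_ℂ = ⟪H325.coef μ b 1 ξ, f⟫_ℂ := by
  rw [L2.inner_def, L2.inner_def]
  refine integral_congr_ae ?_
  filter_upwards [H325.emb_ae μ b f, H325.coef_ae μ b 1 ξ] with x e1 e2
  rw [e1, e2, inner_smul_right, RCLike.inner_apply, inner_conj_symm]

theorem tot [Countable Γ] (h : RegRep ρ ω) {ξ : Lp K 2 μ}
    (h0 : ∀ k : Γ, ∀ f : Lp ℂ 2 μ,
      ⟪(adjoint (lu h k)).compLpL 2 μ ξ, H325.emb μ (bh h 1) f⟫_ℂ = 0) : ξ = 0 := by
  have h1 : ∀ k : Γ, H325.coef μ (bh h 1) k ξ = 0 := by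
    intro k
    have h2 := h0 k (H325.coef μ (bh h 1) 1 ((adjoint (lu h k)).compLpL 2 μ ξ))
    rw [inner_emb, inner_self_eq_zero] at h2
    refine Lp.ext ?_
    have h3 : (H325.coef μ (bh h 1) 1 ((adjoint (lu h k)).compLpL 2 μ ξ)) =ᵐ[μ] fun _ => 0 := by
      rw [h2]
      exact Lp.coeFn_zero ℂ 2 μ
    filter_upwards [H325.coef_ae μ (bh h 1) k ξ,
      H325.coef_ae μ (bh h 1) 1 ((adjoint (lu h k)).compLpL 2 μ ξ),
      (adjoint (lu h k)).coeFn_compLpL ξ, h3, Lp.coeFn_zero ℂ 2 μ] with x e1 e2 e3 e4 e5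
    rw [e1, e5]
    rw [e2, e3, adjoint_inner_right] at e4
    have e6 : lu h k (bh h 1 1) = bh h 1 k := by
      rw [bh_apply, bh_apply, mul_one, inv_one, map_one, one_mul]
      exact lu_omega h k
    rw [e6] at e4
    exact e4
  rw [H325.eq_emb μ (bh h 1) ξ fun g _ => h1 g, h1 1, map_zero]

/-- the functions `f` with `f ⊗ ω` in `PP` -/
noncomputable def AA [Countable Γ] (h : RegRep ρ ω) (ι : Γ →* G) (κ : Λ →* H)
    (V : Λ →* (K →L[ℂ] K)) (μ : Measure G) : Submodule ℂ (Lp ℂ 2 μ) :=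
  (PP ι κ ρ V ω μ).comap (H325.emb μ (bh h 1)).toLinearMap

theorem mem_AA [Countable Γ] {h : RegRep ρ ω} {f : Lp ℂ 2 μ} :
    f ∈ AA h ι κ V μ ↔ H325.emb μ (bh h 1) f ∈ PP ι κ ρ V ω μ := Iff.rfl

theorem bh_one_one (h : RegRep ρ ω) : bh h 1 1 = ω := by
  rw [bh_apply, mul_one, inv_one, map_one]
  rfl

theorem emb_ae' [Countable Γ] (h : RegRep ρ ω) (f : Lp ℂ 2 μ) :
    H325.emb μ (bh h 1) f =ᵐ[μ] fun x => f x • ω := by
  filter_upwards [H325.emb_ae μ (bh h 1) f] with x e1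
  rw [e1, bh_one_one]

theorem norm_emb [Countable Γ] (h : RegRep ρ ω) (f : Lp ℂ 2 μ) :
    ‖H325.emb μ (bh h 1) f‖ = ‖f‖ := by
  rw [Lp.norm_def, Lp.norm_def]
  congr 1
  refine eLpNorm_congr_norm_ae ?_
  filter_upwards [emb_ae' h f] with x e1
  rw [e1, norm_smul, h.norm_one, mul_one]

theorem AA_star [Countable Γ] (h : TFrm ρ V ω) (hT : TrIn ι ρ ω μ) (hO : OrIn ι κ ρ V ω μ)
    {f : Lp ℂ 2 μ} (hf : f ∈ AA h.reg ι κ V μ) {f' : Lp ℂ 2 μ}
    (hf' : f' =ᵐ[μ] fun x => (starRingEnd ℂ) (f x)) : f' ∈ AA h.reg ι κ V μ := by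
  rw [mem_AA, pp_iff hO] at hf ⊢
  intro ε hε
  obtain ⟨c, hc, hd⟩ := hf ε hε
  have hc' := sf_adj h hT hO hc
  refine ⟨_, hc', ?_⟩
  have hm := sf_ap hO hc ω
  have hm' := sf_ap hO hc' ω
  have hnn : ‖H325.emb μ (bh h.reg 1) f - hm.toLp _‖ ≤ ε :=
    norm_sub_le_of hε.le hm.coeFn_toLp hd
  refine eLpNorm_sub_le_of hm'.coeFn_toLp ?_
  -- the two norms are equal
  have e1 : ‖f'‖ = ‖f‖ := by
    rw [Lp.norm_def, Lp.norm_def]
    congr 1
    refine eLpNorm_congr_norm_ae ?_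
    filter_upwards [hf'] with x e1
    rw [e1, RCLike.norm_conj]
  have e2 : ‖hm'.toLp _‖ = ‖hm.toLp _‖ := by
    rw [Lp.norm_toLp, Lp.norm_toLp, (hT c (sf_fd h hc) hm).2]
  have e3 : ⟪H325.emb μ (bh h.reg 1) f', hm'.toLp _⟫_ℂ =
      (starRingEnd ℂ) ⟪H325.emb μ (bh h.reg 1) f, hm.toLp _⟫_ℂ := by
    rw [L2.inner_def, L2.inner_def, ← integral_conj]
    refine integral_congr_ae ?_
    filter_upwards [emb_ae' h.reg f', emb_ae' h.reg f, hm.coeFn_toLp, hm'.coeFn_toLp, hf'] with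
      x a1 a2 a3 a4 a5
    rw [a1, a2, a3, a4, a5, inner_smul_left, inner_smul_left, adjoint_inner_right, map_mul,
      inner_conj_symm]
  have e4 : ‖H325.emb μ (bh h.reg 1) f' - hm'.toLp _‖ ^ 2 =
      ‖H325.emb μ (bh h.reg 1) f - hm.toLp _‖ ^ 2 := by
    rw [@norm_sub_sq ℂ, @norm_sub_sq ℂ, norm_emb, norm_emb, e1, e2, e3, RCLike.conj_re]
  have e5 : ‖H325.emb μ (bh h.reg 1) f' - hm'.toLp _‖ =
      ‖H325.emb μ (bh h.reg 1) f - hm.toLp _‖ :=
    (pow_left_inj₀ (norm_nonneg _) (norm_nonneg _) two_ne_zero).mp e4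
  rw [e5]
  exact hnn

theorem f_mul_mem [Countable Γ] (h : TFrm ρ V ω) (hO : OrIn ι κ ρ V ω μ)
    {f : Lp ℂ 2 μ} (hf : f ∈ AA h.reg ι κ V μ) {c : G → K →L[ℂ] K}
    (hc : c ∈ SF ι κ ρ V ω μ) {ξ : Lp K 2 μ} (hξ : ξ =ᵐ[μ] fun x => f x • c x ω) :
    ξ ∈ PP ι κ ρ V ω μ := by
  rw [mem_AA, pp_iff hO] at hf
  rw [pp_iff hO]
  intro ε hε
  obtain ⟨D, hD0, hD⟩ := (sf_fd h hc).exists_bdd
  obtain ⟨d, hd, hde⟩ := hf (ε / D) (by positivity)
  refine ⟨_, sf_mul h hO hc hd, ?_⟩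
  have h1 : ∀ᵐ x ∂μ, ‖ξ x - (c x * d x) ω‖ ≤
      D * ‖(H325.emb μ (bh h.reg 1) f) x - d x ω‖ := by
    filter_upwards [hξ, emb_ae' h.reg f] with x a1 a2
    rw [a1, a2, mul_ap, ← map_smul, ← map_sub]
    exact ((c x).le_opNorm _).trans (mul_le_mul_of_nonneg_right (hD x) (norm_nonneg _))
  refine (eLpNorm_le_mul_eLpNorm_of_ae_le_mul h1 2).trans ?_
  calc ENNReal.ofReal D * eLpNorm (fun x => (H325.emb μ (bh h.reg 1) f) x - d x ω) 2 μ
      ≤ ENNReal.ofReal D * ENNReal.ofReal (ε / D) := by gcongr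
    _ = ENNReal.ofReal ε := by
        rw [← ENNReal.ofReal_mul hD0.le]
        congr 1
        field_simp

theorem AA_mul [Countable Γ] (h : TFrm ρ V ω) (hO : OrIn ι κ ρ V ω μ)
    {f : Lp ℂ 2 μ} (hf : f ∈ AA h.reg ι κ V μ) (hfb : ∃ C : ℝ, ∀ᵐ x ∂μ, ‖f x‖ ≤ C)
    {g : Lp ℂ 2 μ} (hg : g ∈ AA h.reg ι κ V μ) {k : Lp ℂ 2 μ}
    (hk : k =ᵐ[μ] fun x => f x * g x) : k ∈ AA h.reg ι κ V μ := by
  obtain ⟨C, hC⟩ := hfb
  obtain ⟨C', hC'⟩ : ∃ C' : ℝ, C' = max C 1 := ⟨_, rfl⟩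
  have hC0 : 0 < C' := by rw [hC']; exact lt_max_of_lt_right one_pos
  have hCC : ∀ᵐ x ∂μ, ‖f x‖ ≤ C' := by
    filter_upwards [hC] with x hx
    rw [hC']
    exact hx.trans (le_max_left _ _)
  rw [mem_AA]
  refine pp_of_near fun ε hε => ?_
  rw [mem_AA, pp_iff hO] at hg
  obtain ⟨c, hc, hd⟩ := hg (ε / C') (by positivity)
  have hm := sf_ap hO hc ω
  have hm2 : MemLp (fun x => f x • c x ω) 2 μ := by
    refine MemLp.of_le_mul (c := C') hm
      ((Lp.aestronglyMeasurable f).smul hm.aestronglyMeasurable) ?_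
    filter_upwards [hCC] with x hx
    rw [norm_smul]
    exact mul_le_mul_of_nonneg_right hx (norm_nonneg _)
  refine ⟨hm2.toLp _, f_mul_mem h hO hf hc hm2.coeFn_toLp, ?_⟩
  refine norm_sub_le_of hε.le hm2.coeFn_toLp ?_
  have h1 : ∀ᵐ x ∂μ, ‖(H325.emb μ (bh h.reg 1) k) x - f x • c x ω‖ ≤
      C' * ‖(H325.emb μ (bh h.reg 1) g) x - c x ω‖ := by
    filter_upwards [hk, emb_ae' h.reg k, emb_ae' h.reg g, hCC] with x a1 a2 a3 a4
    rw [a2, a3, a1, mul_smul, ← smul_sub, norm_smul]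
    exact mul_le_mul_of_nonneg_right a4 (norm_nonneg _)
  refine (eLpNorm_le_mul_eLpNorm_of_ae_le_mul h1 2).trans ?_
  calc ENNReal.ofReal C' * eLpNorm (fun x => (H325.emb μ (bh h.reg 1) g) x - c x ω) 2 μ
      ≤ ENNReal.ofReal C' * ENNReal.ofReal (ε / C') := by gcongr
    _ = ENNReal.ofReal ε := by
        rw [← ENNReal.ofReal_mul hC0.le]
        congr 1
        field_simp

section haar

variable [LocallyCompactSpace G] [T2Space G] [μ.IsHaarMeasure] [μ.IsMulRightInvariant]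
  [Countable Γ]

theorem AA_inv (h : TFrm ρ V ω) (hT : TrIn ι ρ ω μ) (hO : OrIn ι κ ρ V ω μ)
    (hι : DenseRange ι) : InvAlg μ (AA h.reg ι κ V μ) where
  closed := pp_closed.preimage (H325.emb μ (bh h.reg 1)).continuous
  left := by
    intro g f hf f' hf'
    -- the closed set of good translations
    have hcl : IsClosed {g : G | H325.emb μ (bh h.reg 1) (H325.tl μ g f) ∈ PP ι κ ρ V ω μ} :=
      pp_closed.preimage ((H325.emb μ (bh h.reg 1)).continuous.comp (H325.continuous_tl μ f))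
    have hsub : closure (Set.range ι) ⊆ _ := hcl.closure_subset_iff.2 (by
      rintro _ ⟨γ, rfl⟩
      show H325.emb μ (bh h.reg 1) (H325.tl μ (ι γ) f) ∈ PP ι κ ρ V ω μ
      rw [← H325.cjL_emb μ (bh h.reg 1) ι (A := cu h.reg) (fun k g => cu_basis h.reg k g)]
      exact pp_cj h hT hO γ hf)
    rw [hι.closure_range] at hsub
    have h1 := hsub (Set.mem_univ g⁻¹)
    have e : f' = H325.tl μ g⁻¹ f := by
      refine Lp.ext ?_
      filter_upwards [hf', H325.tl_ae μ g⁻¹ f] with x a1 a2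
      rw [a1, a2, inv_inv]
    rw [e]
    exact h1
  right := by
    intro g f hf f' hf'
    have e : f' = H325.tr μ g f := by
      refine Lp.ext ?_
      filter_upwards [hf', H325.tr_ae μ g f] with x a1 a2
      rw [a1, a2]
    have e2 : H325.emb μ (bh h.reg 1) (H325.tr μ g f) =
        H325.tr μ g (H325.emb μ (bh h.reg 1) f) := by
      refine Lp.ext ?_
      have h3 := (measurePreserving_mul_right μ g).quasiMeasurePreserving.ae
        (H325.emb_ae μ (bh h.reg 1) f)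
      filter_upwards [H325.emb_ae μ (bh h.reg 1) (H325.tr μ g f), H325.tr_ae μ g f,
        H325.tr_ae μ g (H325.emb μ (bh h.reg 1) f), h3] with x a1 a2 a3 a4
      rw [a1, a2, a3, a4]
    rw [e, mem_AA, e2]
    exact pp_tr g hO hf
  star := fun f hf f' hf' => AA_star h hT hO hf hf'
  mul := fun f hf hfb g hg k hk => AA_mul h hO hf hfb hg hk

theorem exists_ne (h : TFrm ρ V ω) (hO : OrIn ι κ ρ V ω μ)
    {b : G → K →L[ℂ] K} (hb : Smo ι κ ρ V ω μ b) (hb0 : ∃ x, b x ≠ 0) :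
    ∃ ξ ∈ PP ι κ ρ V ω μ, ξ ≠ 0 := by
  refine ⟨hb.l2.toLp _, ap_mem h hO hb ω _ hb.l2.coeFn_toLp, fun h0 => ?_⟩
  obtain ⟨x, hx⟩ := hb0
  refine hx ?_
  have h1 : (fun x => b x ω) =ᵐ[μ] fun _ => (0 : K) := by
    have h2 := hb.l2.coeFn_toLp
    rw [h0] at h2
    exact h2.symm.trans (Lp.coeFn_zero K 2 μ)
  have h2 := (Continuous.ae_eq_iff_eq μ (hb.toFd.continuous_apply ω) continuous_const).mp h1
  have h3 : ∀ x, b x ω = 0 := fun x => congrFun h2 x
  refine h.reg.ext_op fun γ => ?_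
  have e3 := hb.equiv γ ((ι γ)⁻¹ * x)
  rw [mul_inv_cancel_left] at e3
  rw [e3, mul_ap, mul_ap, h.reg.inv_apply, h3, map_zero]
  rfl

theorem cj_inner (h : TFrm ρ V ω) (k : Γ) (x z : Lp K 2 μ) :
    ⟪H325.cjL μ ι (cu h.reg) k x, z⟫_ℂ = ⟪x, H325.cjL μ ι (cu h.reg) k⁻¹ z⟫_ℂ :=
  inner_of_isom (U := H325.cjL μ ι (cu h.reg) k) (U' := H325.cjL μ ι (cu h.reg) k⁻¹)
    (fun ξ => norm_cjL (fun g u => norm_cu h.reg g u) k ξ)
    (fun ξ => cjL_inv (cu_mul h.reg) (cu_one h.reg) k ξ) x z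

theorem tr_inner (y : G) (x z : Lp K 2 μ) :
    ⟪H325.tr μ y x, z⟫_ℂ = ⟪x, H325.tr μ y⁻¹ z⟫_ℂ :=
  inner_of_isom (U := (H325.tr μ y : Lp K 2 μ →L[ℂ] Lp K 2 μ))
    (U' := (H325.tr μ y⁻¹ : Lp K 2 μ →L[ℂ] Lp K 2 μ))
    (fun ξ => H325.norm_tr μ y ξ) (fun ξ => tr_inv y ξ) x z

theorem htotal (h : TFrm ρ V ω) (ξ : Lp K 2 μ) (hξ : ∀ m : K →L[ℂ] K, Cmm ρ m → ∀ f : Lp ℂ 2 μ,
      ⟪m.compLpL 2 μ ξ, H325.emb μ (bh h.reg 1) f⟫_ℂ = 0) : ξ = 0 :=
  tot h.reg fun k f => hξ _ (h.reg.cmm_adjoint (lu_cmm h.reg k)) f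

theorem AA_ne (h : TFrm ρ V ω) (hT : TrIn ι ρ ω μ) (hO : OrIn ι κ ρ V ω μ)
    (hι : DenseRange ι)
    (hinf : ∀ g : Γ, g ≠ 1 → ∀ U ∈ 𝓝 (1 : G), {k : Γ | ∃ h : Γ, ι h ∈ U ∧ k = h * g * h⁻¹}.Infinite)
    {ξ : Lp K 2 μ} (hξ : ξ ∈ PP ι κ ρ V ω μ) (hξ0 : ξ ≠ 0) : AA h.reg ι κ V μ ≠ ⊥ := by
  have hcl := pp_closed (ι := ι) (κ := κ) (ρ := ρ) (V := V) (ω := ω) (μ := μ)
  have hcs : CompleteSpace (PP ι κ ρ V ω μ) := hcl.completeSpace_coe
  intro hbot
  have hc1 : ∀ k ξ, (PP ι κ ρ V ω μ).starProjection (H325.cjL μ ι (cu h.reg) k ξ) =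
      H325.cjL μ ι (cu h.reg) k ((PP ι κ ρ V ω μ).starProjection ξ) := fun k ξ =>
    proj_comm _ (cj_inner h k) (fun ξ hξ => pp_cj h hT hO k hξ)
      (fun ξ hξ => pp_cj h hT hO k⁻¹ hξ) ξ
  have hc2 : ∀ y ξ, (PP ι κ ρ V ω μ).starProjection (H325.tr μ y ξ) =
      H325.tr μ y ((PP ι κ ρ V ω μ).starProjection ξ) := fun y ξ =>
    proj_comm _ (tr_inner y) (fun ξ hξ => pp_tr y hO hξ) (fun ξ hξ => pp_tr y⁻¹ hO hξ) ξ
  obtain ⟨T, hT1, hT2, hT3⟩ := H325.commutant μ (bh h.reg 1) ι (A := cu h.reg)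
    (fun k u => norm_cu h.reg k u) hι (fun k g => cu_basis h.reg k g) hinf
    ((PP ι κ ρ V ω μ).starProjection) hc1 hc2
  have h1 : ∀ f : Lp ℂ 2 μ,
      (PP ι κ ρ V ω μ).starProjection (H325.emb μ (bh h.reg 1) f) = 0 := by
    intro f
    have h2 : T f ∈ AA h.reg ι κ V μ := by
      rw [mem_AA, ← hT1 f]
      exact Submodule.starProjection_apply_mem _ _
    rw [hbot, Submodule.mem_bot] at h2
    rw [hT1, h2, map_zero]
  refine hξ0 (htotal h ξ fun m hm f => ?_)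
  have h3 := pp_lm h hT hO hm hξ
  have h4 := Submodule.starProjection_inner_eq_zero (K := PP ι κ ρ V ω μ)
    (H325.emb μ (bh h.reg 1) f) _ h3
  rw [h1, sub_zero] at h4
  rw [← inner_conj_symm, h4, map_zero]

/-- **[FULL]** The smooth fields times the unitaries `V v` are total. -/
theorem full [NoncompactSpace G] (h : TFrm ρ V ω) (hT : TrIn ι ρ ω μ) (hO : OrIn ι κ ρ V ω μ)
    (hι : DenseRange ι)
    (hinf : ∀ g : Γ, g ≠ 1 → ∀ U ∈ 𝓝 (1 : G), {k : Γ | ∃ h : Γ, ι h ∈ U ∧ k = h * g * h⁻¹}.Infinite)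
    (hN : ∀ N : Subgroup G, N.Normal → IsClosed (N : Set G) → N = ⊥ ∨ N = ⊤)
    {b : G → K →L[ℂ] K} (hb : Smo ι κ ρ V ω μ b) (hb0 : ∃ x, b x ≠ 0) :
    PP ι κ ρ V ω μ = ⊤ := by
  have hcl := pp_closed (ι := ι) (κ := κ) (ρ := ρ) (V := V) (ω := ω) (μ := μ)
  have hcs : CompleteSpace (PP ι κ ρ V ω μ) := hcl.completeSpace_coe
  obtain ⟨ξ, hξ, hξ0⟩ := exists_ne h hO hb hb0
  have hAtop := eq_top (AA_inv h hT hO hι) (AA_ne h hT hO hι hinf hξ hξ0) hN
  have horth : (PP ι κ ρ V ω μ)ᗮ = ⊥ := by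
    rw [Submodule.eq_bot_iff]
    intro ξ hξ
    rw [Submodule.mem_orthogonal] at hξ
    refine htotal h ξ fun m hm f => ?_
    have h1 : f ∈ AA h.reg ι κ V μ := by rw [hAtop]; trivial
    have h2 := pp_lm h hT hO (h.reg.cmm_adjoint hm) (mem_AA.mp h1)
    rw [inner_compLpL, ← inner_conj_symm, hξ _ h2, map_zero]
  rwa [Submodule.orthogonal_eq_bot_iff] at horth

end haar

end full

end Vale.Agent.P092.H734
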