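import Vale.Agent.P092.H734.Full

/-!
P092 (helper734): convenient forms of [A-FULL].
-/

set_option linter.all false

open scoped InnerProductSpace Topology ENNReal
open Filter ContinuousLinearMap MeasureTheory
open Vale.Agent.P092.H160 Vale.Agent.P092.H156.Sm

namespace Vale.Agent.P092.H734

/-- infinitely many conjugates near the identity, from non-open centralizers -/
theorem hinf_of {Γ G : Type*} [Group Γ] [Group G] [TopologicalSpace G] [IsTopologicalGroup G]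
    [T1Space G] {ι : Γ →* G} (hι : DenseRange ι)
    (hC : ∀ g : Γ, g ≠ 1 → ¬ IsOpen ((Subgroup.centralizer {ι g} : Subgroup G) : Set G)) :
    ∀ g : Γ, g ≠ 1 → ∀ U ∈ 𝓝 (1 : G),
      {k : Γ | ∃ h : Γ, ι h ∈ U ∧ k = h * g * h⁻¹}.Infinite := by
  intro g hg U hU hfin
  refine hC g hg (H35.centralizer_open_of_finite ι hι (ι g) U hU
    (ι '' {k : Γ | ∃ h : Γ, ι h ∈ U ∧ k = h * g * h⁻¹}) (hfin.image _) fun w hw => ?_)
  exact ⟨w * g * w⁻¹, ⟨w, hw, rfl⟩, by simp⟩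

section full

variable {Γ Λ G H K : Type} [Group Γ] [Group Λ] [Group G] [Group H]
  [TopologicalSpace G] [TopologicalSpace H] [IsTopologicalGroup G] [IsTopologicalGroup H]
  [SecondCountableTopology G] [MeasurableSpace G] [BorelSpace G]
  [NormedAddCommGroup K] [InnerProductSpace ℂ K] [CompleteSpace K]
  {ρ : Γ →* (K →L[ℂ] K)} {V : Λ →* (K →L[ℂ] K)} {ω : K} {ι : Γ →* G} {κ : Λ →* H}
  {μ : Measure G} [LocallyCompactSpace G] [T2Space G] [μ.IsHaarMeasure] [μ.IsMulRightInvariant]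
  [Countable Γ] [NoncompactSpace G]

/-- approximation form: every vector is an `L²`-limit of fields in `SF`. -/
theorem full_approx (h : TFrm ρ V ω) (hT : TrIn ι ρ ω μ) (hO : OrIn ι κ ρ V ω μ)
    (hι : DenseRange ι)
    (hC : ∀ g : Γ, g ≠ 1 → ¬ IsOpen ((Subgroup.centralizer {ι g} : Subgroup G) : Set G))
    (hN : ∀ N : Subgroup G, N.Normal → IsClosed (N : Set G) → N = ⊥ ∨ N = ⊤)
    {b : G → K →L[ℂ] K} (hb : Smo ι κ ρ V ω μ b) (hb0 : ∃ x, b x ≠ 0) (ξ : Lp K 2 μ) {ε : ℝ}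
    (hε : 0 < ε) : ∃ c ∈ SF ι κ ρ V ω μ,
      eLpNorm (fun x => ξ x - c x ω) 2 μ ≤ ENNReal.ofReal ε := by
  have h1 := full h hT hO hι (hinf_of hι hC) hN hb hb0
  have h2 : ξ ∈ PP ι κ ρ V ω μ := by rw [h1]; trivial
  exact (pp_iff hO).mp h2 ε hε

/-- orthogonality form: a vector orthogonal to all `x ↦ b x (V v ω)`, `b` smooth, is zero. -/
theorem full_orth (h : TFrm ρ V ω) (hT : TrIn ι ρ ω μ) (hO : OrIn ι κ ρ V ω μ)
    (hι : DenseRange ι)
    (hC : ∀ g : Γ, g ≠ 1 → ¬ IsOpen ((Subgroup.centralizer {ι g} : Subgroup G) : Set G))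
    (hN : ∀ N : Subgroup G, N.Normal → IsClosed (N : Set G) → N = ⊥ ∨ N = ⊤)
    {b : G → K →L[ℂ] K} (hb : Smo ι κ ρ V ω μ b) (hb0 : ∃ x, b x ≠ 0) (ξ : Lp K 2 μ)
    (hξ : ∀ c : G → K →L[ℂ] K, Smo ι κ ρ V ω μ c → ∀ (v : Λ) (η : Lp K 2 μ),
      η =ᵐ[μ] (fun x => c x (V v ω)) → ⟪η, ξ⟫_ℂ = 0) : ξ = 0 := by
  have h1 := full h hT hO hι (hinf_of hι hC) hN hb hb0
  have h3 : ∀ c ∈ SF ι κ ρ V ω μ, ∀ η : Lp K 2 μ, η =ᵐ[μ] (fun x => c x ω) → ⟪η, ξ⟫_ℂ = 0 := by
    intro c hc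
    induction hc using Submodule.span_induction with
    | mem c hc =>
      obtain ⟨b, v, hb, rfl⟩ := hc
      exact fun η hη => hξ b hb v η hη
    | zero =>
      intro η hη
      have e : η = 0 := by
        refine Lp.ext ?_
        filter_upwards [hη, Lp.coeFn_zero K 2 μ] with x e1 e2
        rw [e1, e2]
        rfl
      rw [e, inner_zero_left]
    | add c d hc hd h1 h2 =>
      intro η hη
      have hmc := sf_ap hO hc ω
      have hmd := sf_ap hO hd ω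
      have e : η = hmc.toLp _ + hmd.toLp _ := by
        refine Lp.ext ?_
        filter_upwards [hη, Lp.coeFn_add (hmc.toLp _) (hmd.toLp _), hmc.coeFn_toLp,
          hmd.coeFn_toLp] with x e1 e2 e3 e4
        rw [e2, Pi.add_apply, e3, e4, e1]
        rfl
      rw [e, inner_add_left, h1 _ hmc.coeFn_toLp, h2 _ hmd.coeFn_toLp, add_zero]
    | smul a c hc h1 =>
      intro η hη
      have hmc := sf_ap hO hc ω
      have e : η = a • hmc.toLp _ := by
        refine Lp.ext ?_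
        filter_upwards [hη, Lp.coeFn_smul a (hmc.toLp _), hmc.coeFn_toLp] with x e1 e2 e3
        rw [e2, Pi.smul_apply, e3, e1]
        rfl
      rw [e, inner_smul_left, h1 _ hmc.coeFn_toLp, mul_zero]
  have h4 : ξ ∈ (SP ι κ ρ V ω μ)ᗮ := by
    rw [Submodule.mem_orthogonal]
    rintro η ⟨c, hc, hη⟩
    exact h3 c hc η hη
  have h5 : (SP ι κ ρ V ω μ)ᗮ = ⊥ := by
    have h6 : (SP ι κ ρ V ω μ).topologicalClosure = ⊤ := h1
    rwa [Submodule.topologicalClosure_eq_top_iff] at h6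
  rw [h5, Submodule.mem_bot] at h4
  exact h4

end full

end Vale.Agent.P092.H734
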