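import Vale.Agent.P092.H734.QFrame
import Vale.Agent.P092.H715.QDefs

/-!
P092 (helper734), project Q: the double frames of the two legs (`H715.Q.Dbl`), and the ergodicity
in the flipped frame from the ergodicity in the frame.
-/

set_option linter.all false

open scoped InnerProductSpace Topology
open Filter ContinuousLinearMap

namespace Vale.Agent.P092.H734.Q

open Vale.Agent.P092.H160 Vale.Agent.P092.SR Vale.Agent.P092.H776 Vale.Agent.P092.H156
open Vale.Agent.P092.H715.Q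

variable {Γ Λ : Type} [Group Γ] [Group Λ] {α : Γ →* (Ell2 Λ →L[ℂ] Ell2 Λ)}

/-- First leg. -/
theorem dbl_one (hα : Frame α) : Dbl (VV α) (RR₁ α) (MonoidHom.fst Γ Γ) (RRR α)
    (MonoidHom.fst Γ Λ) (RV₁ hα) (dl (1 : Λ × Λ)) where
  fr := frm hα
  fr' := frm₁ hα
  sec g := ⟨(g, 1), rfl, by rw [RRR_apply, map_one, mul_one]⟩
  sec' g := ⟨(g, 1), rfl, by rw [RV₁_ap, map_one, mul_one]⟩
  ker T := by
    constructor
    · intro h y hy
      obtain ⟨g, c⟩ := y
      obtain rfl : g = 1 := hy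
      rw [RV₁_ap, map_one, one_mul]
      exact ((cmm_two hα T).mp fun b => by
        have h1 := h (1, b) rfl
        rwa [RRR_apply, map_one, one_mul] at h1) c
    · intro h x hx
      obtain ⟨a, b⟩ := x
      obtain rfl : a = 1 := hx
      rw [RRR_apply, map_one, one_mul]
      exact ((cmm_two hα T).mpr fun c => by
        have h1 := h (1, c) rfl
        rwa [RV₁_ap, map_one, one_mul] at h1) b

/-- Second leg. -/
theorem dbl_two (hα : Frame α) : Dbl (VV α) (RR₂ α) (MonoidHom.snd Γ Γ) (RRR α)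
    (MonoidHom.fst Γ Λ) (RV₂ hα) (dl (1 : Λ × Λ)) where
  fr := frm hα
  fr' := frm₂ hα
  sec g := ⟨(1, g), rfl, by rw [RRR_apply, map_one, one_mul]⟩
  sec' g := ⟨(g, 1), rfl, by rw [RV₂_ap, map_one, mul_one]⟩
  ker T := by
    constructor
    · intro h y hy
      obtain ⟨g, c⟩ := y
      obtain rfl : g = 1 := hy
      rw [RV₂_ap, map_one, one_mul]
      exact ((cmm_one hα T).mp fun b => by
        have h1 := h (b, 1) rfl
        rwa [RRR_apply, map_one, mul_one] at h1) c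
    · intro h x hx
      obtain ⟨a, b⟩ := x
      obtain rfl : b = 1 := hx
      rw [RRR_apply, map_one, mul_one]
      exact ((cmm_one hα T).mpr fun c => by
        have h1 := h (1, c) rfl
        rwa [RV₂_ap, map_one, one_mul] at h1) a

/-! ### Ergodicity in the flipped frames -/

section erg

variable {X K H : Type} [Group X] [Group H] [TopologicalSpace H] [NormedAddCommGroup K]
  [InnerProductSpace ℂ K] [CompleteSpace K]

/-- Ergodicity at the place `κ`: operators commuting with `ρ` and continuous for the conjugation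
by `V` at the place `κ` (tested on the trace vector) are scalar. -/
def Erg (κ : Γ →* H) (ρ : X →* (K →L[ℂ] K)) (V : Γ →* (K →L[ℂ] K)) (ω : K) : Prop :=
  ∀ T : K →L[ℂ] K, Cmm ρ T →
    (∀ ε > 0, ∃ W ∈ 𝓝 (1 : H), ∀ v, κ v ∈ W → ‖(V v * T * V v⁻¹ - T) ω‖ ≤ ε) →
    ∃ c : ℂ, T = c • (1 : K →L[ℂ] K)

/-- Transport of the ergodicity by an antiunitary involution. -/
theorem Erg.flip {J : K → K} (hJ : AInv J) {κ : Γ →* H} {X' : Type} [Group X']
    {ρ : X →* (K →L[ℂ] K)} {V : Γ →* (K →L[ℂ] K)} {ρ' : X' →* (K →L[ℂ] K)}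
    {W : Γ →* (K →L[ℂ] K)} {ω : K} (hE : Erg κ ρ V ω) (hω : J ω = ω)
    (hVW : ∀ g v, J (V g v) = W g (J v)) (hc : ∀ T, Cmm ρ' T → Cmm ρ (cjo hJ T)) :
    Erg κ ρ' W ω := by
  intro T hT hcont
  have h1 : ∀ v, cjo hJ (V v * cjo hJ T * V v⁻¹ - cjo hJ T) = W v * T * W v⁻¹ - T := by
    intro v
    rw [cjo_sub, cjo_mul, cjo_mul, cjo_cjo, cjo_eq hJ (hVW v), cjo_eq hJ (hVW v⁻¹)]
  obtain ⟨c, hc'⟩ := hE (cjo hJ T) (hc T hT) fun ε hε => by
    obtain ⟨U, hU, h2⟩ := hcont ε hε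
    refine ⟨U, hU, fun v hv => ?_⟩
    have h3 := h2 v hv
    rwa [← h1, norm_cjo_apply, hω] at h3
  refine ⟨(starRingEnd ℂ) c, ?_⟩
  rw [← cjo_cjo hJ T, hc', cjo_smul, cjo_one]

end erg

/-- Ergodicity in the flipped frame of the first leg. -/
theorem erg_flip_one {H : Type} [Group H] [TopologicalSpace H] {κ : Γ →* H} (hα : Frame α)
    (hE : Erg κ (RRR α) (VV α) (dl (1 : Λ × Λ))) :
    Erg κ (RV₁ hα) (RR₁ α) (dl (1 : Λ × Λ)) := by
  refine hE.flip ainv₁ F₁_one (fun g v => F₁_V g v) fun T hT => ?_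
  have hV : ∀ g, T * VV α g = VV α g * T := fun g => by
    have h := hT (g, 1)
    rwa [RV₁_ap, map_one, mul_one] at h
  have hr : ∀ c, T * rr₂ Λ c = rr₂ Λ c * T := fun c => by
    have h := hT (1, c)
    rwa [RV₁_ap, map_one, one_mul] at h
  have h1 : Cmm (RR₁ α) (cjo ainv₁ T) := fun g => (comm_cjo ainv₁ (fun v => F₁_V g v)).mpr (hV g)
  have h2 : Cmm (RR₂ α) (cjo ainv₁ T) :=
    (cmm_two hα _).mpr fun c => (comm_cjo ainv₁ (fun v => F₁_rr c v)).mpr (hr c)
  intro p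
  rw [RRR_apply, ← mul_assoc, h1 p.1, mul_assoc, h2 p.2, mul_assoc]

/-- Ergodicity in the flipped frame of the second leg. -/
theorem erg_flip_two {H : Type} [Group H] [TopologicalSpace H] {κ : Γ →* H} (hα : Frame α)
    (hE : Erg κ (RRR α) (VV α) (dl (1 : Λ × Λ))) :
    Erg κ (RV₂ hα) (RR₂ α) (dl (1 : Λ × Λ)) := by
  refine hE.flip ainv₂ F₂_one (fun g v => F₂_V hα g v) fun T hT => ?_
  have hV : ∀ g, T * VV α g = VV α g * T := fun g => by
    have h := hT (g, 1)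
    rwa [RV₂_ap, map_one, mul_one] at h
  have hr : ∀ c, T * rr₁ Λ c = rr₁ Λ c * T := fun c => by
    have h := hT (1, c)
    rwa [RV₂_ap, map_one, one_mul] at h
  have h2 : Cmm (RR₂ α) (cjo ainv₂ T) := fun g =>
    (comm_cjo ainv₂ (fun v => F₂_V hα g v)).mpr (hV g)
  have h1 : Cmm (RR₁ α) (cjo ainv₂ T) :=
    (cmm_one hα _).mpr fun c => (comm_cjo ainv₂ (fun v => F₂_rr c v)).mpr (hr c)
  intro p
  rw [RRR_apply, ← mul_assoc, h1 p.1, mul_assoc, h2 p.2, mul_assoc]

end Vale.Agent.P092.H734.Q
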