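import Vale.Agent.P092.PA.LatOf
import Vale.Agent.P092.Q.Defs

/-!
P092 (helper734), project Q, [Q-LAT] (2): in a lattice there are elements which are close to `1` at one
place and far away at another one.
-/

set_option linter.all false

open MeasureTheory Filter Topology Set
open scoped Pointwise ENNReal

namespace Vale.Agent.P092.H734.Q

open Vale.Agent.P092.H515

section far

variable {E G₁ G₂ : Type} [Group E] [TopologicalSpace E] [IsTopologicalGroup E]
  [LocallyCompactSpace E] [SecondCountableTopology E] [T2Space E]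
  [Group G₁] [TopologicalSpace G₁] [IsTopologicalGroup G₁]
  [Group G₂] [TopologicalSpace G₂] [IsTopologicalGroup G₂] [LocallyCompactSpace G₂]

/-- In a noncompact group there is a sequence whose quotients avoid a given compact set. -/
theorem exists_avoid (hnc : ¬ CompactSpace G₂) {K : Set G₂} (hK : IsCompact K) :
    ∃ h : ℕ → G₂, Pairwise fun m n => (h m)⁻¹ * h n ∉ K := by
  have hsym : Std.Symm fun x y : G₂ => x⁻¹ * y ∉ K ∧ y⁻¹ * x ∉ K :=
    ⟨fun x y h => ⟨h.2, h.1⟩⟩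
  obtain ⟨h, -, hh⟩ := exists_seq_of_forall_finset_exists' (fun _ : G₂ => True)
    (fun x y : G₂ => x⁻¹ * y ∉ K ∧ y⁻¹ * x ∉ K) (fun s _ => by
      have hc : IsCompact (⋃ x ∈ s, (fun z => x * z) '' (K ∪ K⁻¹)) :=
        s.finite_toSet.isCompact_biUnion fun x _ =>
          (hK.union hK.inv).image (continuous_const_mul x)
      have hne : (⋃ x ∈ s, (fun z => x * z) '' (K ∪ K⁻¹)) ≠ Set.univ := fun hu => hnc ⟨hu ▸ hc⟩
      obtain ⟨y, hy⟩ := (Set.ne_univ_iff_exists_notMem _).1 hne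
      refine ⟨y, trivial, fun x hx => ⟨fun h1 => hy ?_, fun h1 => hy ?_⟩⟩
      · exact Set.mem_iUnion₂.2 ⟨x, hx, x⁻¹ * y, Or.inl h1, mul_inv_cancel_left _ _⟩
      · refine Set.mem_iUnion₂.2 ⟨x, hx, x⁻¹ * y, Or.inr ?_, mul_inv_cancel_left _ _⟩
        rw [Set.mem_inv, mul_inv_rev, inv_inv]
        exact h1)
  exact ⟨h, fun m n hmn => (hh hmn).1⟩

/-- Elements of a lattice close to `1` at one place and far away at another place. -/
theorem exists_far (L : Subgroup E) (hL : IsLattice L) (hnc : ¬ CompactSpace G₂)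
    (π₁ : E →* G₁) (π₂ : E →* G₂) (h₁ : Continuous π₁) (h₂ : Continuous π₂) (s : G₂ → E)
    (hs₁ : ∀ h, π₁ (s h) = 1) (hs₂ : ∀ h, π₂ (s h) = h) {U : Set G₁} (hU : U ∈ 𝓝 (1 : G₁))
    {C : Set G₂} (hC : IsCompact C) : ∃ v ∈ L, π₁ v ∈ U ∧ π₂ v ∉ C := by
  haveI := hL.disc
  letI : MeasurableSpace E := borel E
  haveI : BorelSpace E := ⟨rfl⟩
  letI : MeasurableSpace (E ⧸ L) := borel _
  haveI : BorelSpace (E ⧸ L) := ⟨rfl⟩
  obtain ⟨ν, hP, hν⟩ := hL.exists_prob
  haveI := hP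
  -- the neighbourhoods
  have hcont : Tendsto (fun p : G₁ × G₁ => p.1⁻¹ * p.2) (𝓝 (1, 1)) (𝓝 (1 : G₁)) := by
    have : Continuous fun p : G₁ × G₁ => p.1⁻¹ * p.2 := by fun_prop
    have h := this.tendsto (1, 1)
    simpa using h
  have h3 := hcont hU
  rw [Filter.mem_map, nhds_prod_eq, Filter.mem_prod_same_iff] at h3
  obtain ⟨V, hV, hVU⟩ := h3
  obtain ⟨V', hV'V, hV'o, hV'1⟩ := mem_nhds_iff.1 hV
  obtain ⟨B, hB, hB1⟩ := exists_compact_mem_nhds (1 : G₂)
  set O : Set E := π₁ ⁻¹' V' ∩ π₂ ⁻¹' interior B with hO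
  have hOo : IsOpen O := (hV'o.preimage h₁).inter (isOpen_interior.preimage h₂)
  have hO1 : (1 : E) ∈ O := ⟨by rw [Set.mem_preimage, map_one]; exact hV'1, by
    rw [Set.mem_preimage, map_one]; exact mem_interior_iff_mem_nhds.2 hB1⟩
  set O' : Set (E ⧸ L) := (QuotientGroup.mk : E → E ⧸ L) '' O with hO'
  have hO'o : IsOpen O' := QuotientGroup.isOpenMap_coe _ hOo
  have hO'n : O'.Nonempty := ⟨_, 1, hO1, rfl⟩
  have hpos : ν O' ≠ 0 := PA.open_pos_of_inv hν hO'o hO'n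
  -- the sequence
  have hK : IsCompact (B * C * B⁻¹) := (hB.mul hC).mul hB.inv
  obtain ⟨h, hh⟩ := exists_avoid hnc hK
  have hmeas : ∀ n, ν ((fun x => (s (h n))⁻¹ • x) ⁻¹' O') = ν O' := fun n => by
    rw [← Measure.map_apply (continuous_const_smul _).measurable hO'o.measurableSet, hν]
  obtain ⟨m, n, hmn, y, hym, hyn⟩ := exists_nonempty_inter_of_measure_univ_lt_tsum_measure ν
    (s := fun n : ℕ => (fun x => (s (h n))⁻¹ • x) ⁻¹' O')
    (fun n => (hO'o.preimage (continuous_const_smul _)).measurableSet.nullMeasurableSet) (by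
      simp only [hmeas]
      rw [ENNReal.tsum_const_eq_top_of_ne_zero hpos, measure_univ]
      exact ENNReal.one_lt_top)
  obtain ⟨a, ha, hae⟩ := hym
  obtain ⟨b, hb, hbe⟩ := hyn
  -- `y = s (h m) a L = s (h n) b L`
  have e1 : ((s (h m) * a : E) : E ⧸ L) = y := by
    have : ((s (h m) * a : E) : E ⧸ L) = s (h m) • (a : E ⧸ L) := rfl
    rw [this, hae]
    exact smul_inv_smul _ _
  have e2 : ((s (h n) * b : E) : E ⧸ L) = y := by
    have : ((s (h n) * b : E) : E ⧸ L) = s (h n) • (b : E ⧸ L) := rfl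
    rw [this, hbe]
    exact smul_inv_smul _ _
  refine ⟨(s (h m) * a)⁻¹ * (s (h n) * b), QuotientGroup.eq.1 (e1.trans e2.symm), ?_, ?_⟩
  · have e3 : π₁ ((s (h m) * a)⁻¹ * (s (h n) * b)) = (π₁ a)⁻¹ * π₁ b := by
      rw [map_mul, map_inv, map_mul, map_mul, hs₁, hs₁, one_mul, one_mul]
    rw [e3]
    exact hVU (Set.mk_mem_prod (hV'V ha.1) (hV'V hb.1))
  · intro hmem
    refine hh hmn ?_
    have e3 : (h m)⁻¹ * h n =
        π₂ a * π₂ ((s (h m) * a)⁻¹ * (s (h n) * b)) * (π₂ b)⁻¹ := by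
      rw [map_mul, map_inv, map_mul, map_mul, hs₂, hs₂]
      group
    rw [e3]
    exact Set.mul_mem_mul (Set.mul_mem_mul (interior_subset ha.2) hmem)
      (Set.inv_mem_inv.2 (interior_subset hb.2))

/-- A sequence tending to `1` at one place and to infinity at another place. -/
theorem esc_of_far {Γ : Type} [Group Γ] {κ₁ : Γ →* G₁} {κ₂ : Γ →* G₂} [FirstCountableTopology G₁]
    [SigmaCompactSpace G₂]
    (h : ∀ U ∈ 𝓝 (1 : G₁), ∀ C : Set G₂, IsCompact C → ∃ g, κ₁ g ∈ U ∧ κ₂ g ∉ C) :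
    Vale.Agent.P092.Q.Esc κ₁ κ₂ := by
  obtain ⟨U, hU⟩ := (𝓝 (1 : G₁)).exists_antitone_basis
  let K : CompactExhaustion G₂ := CompactExhaustion.choice G₂
  choose w hw1 hw2 using fun n => h (U n) (hU.1.mem_of_mem trivial) (K n) (K.isCompact n)
  refine ⟨w, ?_, ?_⟩
  · rw [hU.1.tendsto_right_iff]
    intro i _
    filter_upwards [eventually_ge_atTop i] with n hn
    exact hU.2 hn (hw1 n)
  · rw [(hasBasis_cocompact (X := G₂)).tendsto_right_iff]
    intro C hC
    obtain ⟨N, hN⟩ := K.exists_superset_of_isCompact hC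
    filter_upwards [eventually_ge_atTop N] with n hn
    exact fun hc => hw2 n (K.subset hn (hN hc))

end far

end Vale.Agent.P092.H734.Q
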