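import Vale.Agent.P092.H734.QDbl

/-!
P092 (helper734), project Q: transport of smooth fields and of the integral identity by the flip.
`J V = W J`, `J ω = ω`: a smooth field `a` of the frame `(ρ, V)` at the places `(κ, p)` gives the
smooth field `x ↦ J a(x) J` of the frame `(ρ', W)` at the same places.
-/

set_option linter.all false

open scoped InnerProductSpace Topology ENNReal
open Filter ContinuousLinearMap MeasureTheory

namespace Vale.Agent.P092.H734.Q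

open Vale.Agent.P092.H160 Vale.Agent.P092.SR Vale.Agent.P092.H776 Vale.Agent.P092.H156
open Vale.Agent.P092.H715.Q

section abs

variable {Γ X Y G H K : Type} [Group Γ] [Group X] [Group Y] [Group G] [Group H]
  [TopologicalSpace G] [TopologicalSpace H] [MeasurableSpace G]
  [NormedAddCommGroup K] [InnerProductSpace ℂ K] [CompleteSpace K]
  {V W : Γ →* (K →L[ℂ] K)} {f : X →* Γ} {ρ : X →* (K →L[ℂ] K)} {f' : Y →* Γ}
  {ρ' : Y →* (K →L[ℂ] K)} {ω : K} {J : K → K} {p : Γ →* G} {κ : Γ →* H} {μ : Measure G}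

/-- The flip of a double frame. -/
structure Flp (J : K → K) (V W : Γ →* (K →L[ℂ] K)) (f : X →* Γ) (ρ : X →* (K →L[ℂ] K)) (ω : K)
    (hJ : AInv J) : Prop where
  om : J ω = ω
  vw : ∀ g v, J (V g v) = W g (J v)
  ker : ∀ T : K →L[ℂ] K, (∀ x, f x = 1 → T * ρ x = ρ x * T) →
    ∀ x, f x = 1 → cjo hJ T * ρ x = ρ x * cjo hJ T

theorem Flp.wv {hJ : AInv J} (F : Flp J V W f ρ ω hJ) (g : Γ) (v : K) : J (W g v) = V g (J v) := by
  have h := F.vw g (J v)
  rw [hJ.inv] at h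
  rw [← h, hJ.inv]

/-- Equivariance in terms of the legs. -/
theorem equiv_iff {V W : Γ →* (K →L[ℂ] K)} (hD : Dbl V W f ρ f' ρ' ω) {b : G → K →L[ℂ] K} :
    (∀ x z, b (p.comp f x * z) = ρ x * b z * ρ x⁻¹) ↔
      (∀ z x, f x = 1 → b z * ρ x = ρ x * b z) ∧ ∀ g z, b (p g * z) = W g * b z * W g⁻¹ := by
  have hρ : ∀ x, ρ x * ρ x⁻¹ = 1 := fun x => by rw [← map_mul, mul_inv_cancel, map_one]
  have hρ' : ∀ x, ρ x⁻¹ * ρ x = 1 := fun x => by rw [← map_mul, inv_mul_cancel, map_one]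
  constructor
  · intro h
    constructor
    · intro z x hx
      have h1 := h x z
      rw [MonoidHom.comp_apply, hx, map_one, one_mul] at h1
      calc b z * ρ x = (ρ x * b z * ρ x⁻¹) * ρ x := by rw [← h1]
        _ = ρ x * b z * (ρ x⁻¹ * ρ x) := by rw [mul_assoc (ρ x * b z)]
        _ = ρ x * b z := by rw [hρ', mul_one]
    · intro g z
      obtain ⟨x, rfl, h1⟩ := hD.sec g
      have h2 := h x z
      have h3 : ρ x⁻¹ = W (f x)⁻¹ := by
        have h4 := congrArg adjoint h1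
        rw [hD.fr.reg.adj, hD.fr'.adj] at h4
        exact h4
      rw [h3, h1] at h2
      exact h2
  · rintro ⟨h1, h2⟩ x z
    obtain ⟨x₀, hx₀, hW⟩ := hD.sec (f x)
    have hW' : ρ x₀⁻¹ = W (f x)⁻¹ := by
      have h4 := congrArg adjoint hW
      rw [hD.fr.reg.adj, hD.fr'.adj] at h4
      exact h4
    have hk : f (x * x₀⁻¹) = 1 := by rw [map_mul, map_inv, hx₀, mul_inv_cancel]
    have e1 : ρ x = ρ (x * x₀⁻¹) * W (f x) := by
      rw [← hW, ← map_mul, inv_mul_cancel_right]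
    have e2 : ρ x⁻¹ = W (f x)⁻¹ * ρ (x * x₀⁻¹)⁻¹ := by
      rw [← hW', ← map_mul, mul_inv_rev, inv_inv, inv_mul_cancel_left]
    have e3 := h1 (p (f x) * z) _ hk
    rw [MonoidHom.comp_apply, e1, e2]
    calc b (p (f x) * z) = b (p (f x) * z) * (ρ (x * x₀⁻¹) * ρ (x * x₀⁻¹)⁻¹) := by
          rw [hρ, mul_one]
      _ = ρ (x * x₀⁻¹) * b (p (f x) * z) * ρ (x * x₀⁻¹)⁻¹ := by rw [← mul_assoc, e3]
      _ = ρ (x * x₀⁻¹) * (W (f x) * b z * W (f x)⁻¹) * ρ (x * x₀⁻¹)⁻¹ := by rw [h2]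
      _ = ρ (x * x₀⁻¹) * W (f x) * b z * (W (f x)⁻¹ * ρ (x * x₀⁻¹)⁻¹) := by
          simp only [mul_assoc]

/-- The symmetric form of `equiv_iff` for the second frame. -/
theorem equiv_iff' (hD : Dbl V W f ρ f' ρ' ω) {b : G → K →L[ℂ] K} :
    (∀ y z, b (p.comp f' y * z) = ρ' y * b z * ρ' y⁻¹) ↔
      (∀ z x, f x = 1 → b z * ρ x = ρ x * b z) ∧ ∀ g z, b (p g * z) = V g * b z * V g⁻¹ := by
  have hD' : Dbl W V f' ρ' f ρ ω := ⟨hD.fr', hD.fr, hD.sec', hD.sec, fun T => (hD.ker T).symm⟩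
  rw [equiv_iff hD']
  have h : (∀ z y, f' y = 1 → b z * ρ' y = ρ' y * b z) ↔
      ∀ z x, f x = 1 → b z * ρ x = ρ x * b z := forall_congr' fun z => (hD.ker (b z)).symm
  rw [h]

variable {hJ : AInv J}

theorem smo_flip (hD : Dbl V W f ρ f' ρ' ω) (F : Flp J V W f ρ ω hJ) {a : G → K →L[ℂ] K}
    (ha : Sm.Smo (p.comp f) κ ρ V ω μ a) :
    Sm.Smo (p.comp f') κ ρ' W ω μ (fun x => cjo hJ (a x)) where
  equiv := by
    obtain ⟨h1, h2⟩ := (equiv_iff hD).mp ha.equiv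
    refine (equiv_iff' (p := p) (b := fun x => cjo hJ (a x)) hD).mpr
      ⟨fun z x hx => F.ker _ (fun x hx => h1 z x hx) x hx, fun g z => ?_⟩
    change cjo hJ (a (p g * z)) = V g * cjo hJ (a z) * V g⁻¹
    rw [h2, cjo_mul, cjo_mul, cjo_eq hJ (F.wv g), cjo_eq hJ (F.wv g⁻¹)]
  bdd := by
    obtain ⟨C, hC⟩ := ha.bdd
    exact ⟨C, fun x => by rw [norm_cjo]; exact hC x⟩
  rcont ε hε := by
    obtain ⟨U, hU, h⟩ := ha.rcont ε hε
    refine ⟨U, hU, fun y hy x => ?_⟩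
    change ‖cjo hJ (a (x * y)) - cjo hJ (a x)‖ ≤ ε
    rw [← cjo_sub, norm_cjo]
    exact h y hy x
  acont ε hε := by
    obtain ⟨U, hU, h⟩ := ha.acont ε hε
    refine ⟨U, hU, fun v hv x => ?_⟩
    change ‖W v * cjo hJ (a x) * W v⁻¹ - cjo hJ (a x)‖ ≤ ε
    have e : W v * cjo hJ (a x) * W v⁻¹ = cjo hJ (V v * a x * V v⁻¹) := by
      rw [cjo_mul, cjo_mul, cjo_eq hJ (F.vw v), cjo_eq hJ (F.vw v⁻¹)]
    rw [e, ← cjo_sub, norm_cjo]
    exact h v hv x
  l2 := by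
    have h : MemLp (fun x => a x ω) 2 μ := ha.l2
    have e : (fun x => cjo hJ (a x) ω) = fun x => J (a x ω) := by
      funext x
      rw [cjo_apply, F.om]
    change MemLp (fun x => cjo hJ (a x) ω) 2 μ
    rw [e]
    refine MemLp.of_le h (hJ.continuous.comp_aestronglyMeasurable h.1) ?_
    exact Filter.Eventually.of_forall fun x => (hJ.norm _).le

/-- The flip in the other direction. -/
theorem smo_flip' (hD : Dbl V W f ρ f' ρ' ω) (F : Flp J V W f ρ ω hJ) {a : G → K →L[ℂ] K}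
    (ha : Sm.Smo (p.comp f') κ ρ' W ω μ a) :
    Sm.Smo (p.comp f) κ ρ V ω μ (fun x => cjo hJ (a x)) := by
  have hD' : Dbl W V f' ρ' f ρ ω := ⟨hD.fr', hD.fr, hD.sec', hD.sec, fun T => (hD.ker T).symm⟩
  refine smo_flip hD' ⟨F.om, F.wv, fun T hT x hx => ?_⟩ ha
  exact (hD.ker _).mp (F.ker T ((hD.ker T).mpr hT)) x hx

/-- The nonvanishing is transported to the second frame. -/
theorem ne_flip (hD : Dbl V W f ρ f' ρ' ω) (F : Flp J V W f ρ ω hJ)
    (h : ∃ a, Sm.Smo (p.comp f) κ ρ V ω μ a ∧ a ≠ 0) :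
    ∃ b, Sm.Smo (p.comp f') κ ρ' W ω μ b ∧ b ≠ 0 := by
  obtain ⟨a, ha, h0⟩ := h
  refine ⟨_, smo_flip hD F ha, fun h1 => h0 ?_⟩
  funext x
  have h2 := congrFun h1 x
  change cjo hJ (a x) = 0 at h2
  rw [← cjo_cjo hJ (a x), h2, cjo_zero]
  rfl

/-- The integral identity is transported to the second frame. -/
theorem f1_flip (hD : Dbl V W f ρ f' ρ' ω) (F : Flp J V W f ρ ω hJ)
    (h : F1 (p.comp f) κ ρ V ω μ) : F1 (p.comp f') κ ρ' W ω μ := by
  intro a b ha hb ζ η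
  have ha' := smo_flip' hD F ha
  have hb' := smo_flip' hD F hb
  have ea : ∀ x v, a x v = J (cjo hJ (a x) (J v)) := fun x v => by rw [cjo_J, hJ.inv]
  have eb : ∀ x v, b x v = J (cjo hJ (b x) (J v)) := fun x v => by rw [cjo_J, hJ.inv]
  constructor
  · have h1 := (h _ _ ha' hb' (J ζ) (J η)).1
    have e : (fun x => a x ζ) = fun x => J (cjo hJ (a x) (J ζ)) := funext fun x => ea x ζ
    rw [e]
    refine MemLp.of_le h1 (hJ.continuous.comp_aestronglyMeasurable h1.1) ?_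
    exact Filter.Eventually.of_forall fun x => (hJ.norm _).le
  · have h1 := (h _ _ hb' ha' (J η) (J ζ)).2
    have e1 : ∫ x, ⟪a x ζ, b x η⟫_ℂ ∂μ = ∫ x, ⟪cjo hJ (b x) (J η), cjo hJ (a x) (J ζ)⟫_ℂ ∂μ := by
      congr 1
      funext x
      rw [ea x ζ, eb x η, hJ.inner]
    have e2 : Sm.ip ω μ a b = Sm.ip ω μ (fun x => cjo hJ (b x)) fun x => cjo hJ (a x) := by
      unfold Sm.ip
      congr 1
      funext x
      have h3 := ea x ω
      have h4 := eb x ω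
      rw [F.om] at h3 h4
      rw [h3, h4, hJ.inner]
    rw [e1, h1, e2, hJ.inner]

end abs

section model

variable {Γ Λ : Type} [Group Γ] [Group Λ] {α : Γ →* (Ell2 Λ →L[ℂ] Ell2 Λ)}

theorem flp_one (hα : Frame α) : Flp (F₁ Λ) (VV α) (RR₁ α) (MonoidHom.fst Γ Γ) (RRR α)
    (dl (1 : Λ × Λ)) ainv₁ where
  om := F₁_one
  vw := F₁_V
  ker T hT x hx := by
    have h := (dbl_one hα).ker
    refine (h _).mpr (fun y hy => ?_) x hx
    obtain ⟨g, c⟩ := y
    obtain rfl : g = 1 := hy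
    have h1 := (h T).mp hT (1, c) rfl
    rw [RV₁_ap, map_one, one_mul] at h1 ⊢
    exact (comm_cjo ainv₁ (fun v => F₁_rr c v)).mpr h1

theorem flp_two (hα : Frame α) : Flp (F₂ Λ) (VV α) (RR₂ α) (MonoidHom.snd Γ Γ) (RRR α)
    (dl (1 : Λ × Λ)) ainv₂ where
  om := F₂_one
  vw := F₂_V hα
  ker T hT x hx := by
    have h := (dbl_two hα).ker
    refine (h _).mpr (fun y hy => ?_) x hx
    obtain ⟨g, c⟩ := y
    obtain rfl : g = 1 := hy
    have h1 := (h T).mp hT (1, c) rfl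
    rw [RV₂_ap, map_one, one_mul] at h1 ⊢
    exact (comm_cjo ainv₂ (fun v => F₂_rr c v)).mpr h1

end model

end Vale.Agent.P092.H734.Q
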