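import Vale.Agent.P092.H734.AInv
import Vale.Agent.P092.H776.Blk
import Vale.Agent.P092.H156.Sm

/-!
P092 (helper734), project Q, [Q-FRAME]: the frames of the two legs, the flips and the flipped
frames, in the model `ℓ²(Λ × Λ)` of `SR.Defs`.
-/

set_option linter.all false

open scoped InnerProductSpace
open Filter Topology ContinuousLinearMap

namespace Vale.Agent.P092.H734.Q

open Vale.Agent.P092.H160 Vale.Agent.P092.SR Vale.Agent.P092.H776 Vale.Agent.P092.H156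

variable {Γ Λ : Type} [Group Γ] [Group Λ] {α : Γ →* (Ell2 Λ →L[ℂ] Ell2 Λ)}

/-! ### The right translations of the two legs -/

/-- right translations in the first leg -/
noncomputable def rr₁ (Λ : Type) [Group Λ] : Λ →* (Ell2 (Λ × Λ) →L[ℂ] Ell2 (Λ × Λ)) where
  toFun s := tens (rho s) 1
  map_one' := by rw [rho_one, tens_one]
  map_mul' s t := by rw [rho_mul, ← tens_mul, one_mul]

/-- right translations in the second leg -/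
noncomputable def rr₂ (Λ : Type) [Group Λ] : Λ →* (Ell2 (Λ × Λ) →L[ℂ] Ell2 (Λ × Λ)) where
  toFun s := tens 1 (rho s)
  map_one' := by rw [rho_one, tens_one]
  map_mul' s t := by rw [rho_mul, ← tens_mul, one_mul]

theorem rr₁_eq (s : Λ) : rr₁ Λ s = rho (s, (1 : Λ)) := by
  change tens (rho s) 1 = _
  rw [← rho_one, tens_rho]

theorem rr₂_eq (s : Λ) : rr₂ Λ s = rho ((1 : Λ), s) := by
  change tens 1 (rho s) = _
  rw [← rho_one, tens_rho]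

theorem rr₁_ap (s : Λ) (v : Ell2 (Λ × Λ)) (p : Λ × Λ) : rr₁ Λ s v p = v (p.1 * s, p.2) := by
  rw [rr₁_eq, rho_apply]
  have h : p * (s, (1 : Λ)) = (p.1 * s, p.2) := Prod.ext rfl (mul_one p.2)
  rw [h]

theorem rr₂_ap (s : Λ) (v : Ell2 (Λ × Λ)) (p : Λ × Λ) : rr₂ Λ s v p = v (p.1, p.2 * s) := by
  rw [rr₂_eq, rho_apply]
  have h : p * ((1 : Λ), s) = (p.1, p.2 * s) := Prod.ext (mul_one p.1) rfl
  rw [h]

/-! ### The comultiplication on vectors -/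

theorem Js_ap (c : Λ) (u : Ell2 Λ) (p : Λ × Λ) :
    Js c u p = u p.1 * (dl c : Ell2 Λ) (p.1⁻¹ * p.2) := rfl

theorem dl_eq_Js (a b : Λ) : (dl (a, b) : Ell2 (Λ × Λ)) = Js (a⁻¹ * b) (dl a) := by
  rw [Js_dl, mul_inv_cancel_left]

theorem Del_dl (x : Ell2 Λ →L[ℂ] Ell2 Λ) (a b : Λ) :
    Del x (dl (a, b)) = Js (a⁻¹ * b) (x (dl a)) := by
  rw [dl_eq_Js]
  exact congrArg (fun L : Ell2 Λ →L[ℂ] Ell2 (Λ × Λ) => L (dl a)) (Del_Js x (a⁻¹ * b))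

theorem rho_Js (s t c : Λ) (u : Ell2 Λ) : rho (s, t) (Js c u) = Js (s * c * t⁻¹) (rho s u) := by
  classical
  apply ext_inner_dl
  rintro ⟨p, q⟩
  rw [rho_apply, Js_ap, Js_ap, rho_apply, dl_apply, dl_apply]
  congr 1
  refine if_congr ?_ rfl rfl
  change (p * s)⁻¹ * (q * t) = c ↔ p⁻¹ * q = s * c * t⁻¹
  rw [eq_mul_inv_iff_mul_eq, mul_inv_rev, mul_assoc s⁻¹, inv_mul_eq_iff_eq_mul, mul_assoc p⁻¹]

theorem Del_rho {x : Ell2 Λ →L[ℂ] Ell2 Λ} (hx : ∀ s, x * rho s = rho s * x) (p : Λ × Λ) :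
    Del x * rho p = rho p * Del x := by
  obtain ⟨s, t⟩ := p
  apply op_ext
  rintro ⟨a, b⟩
  rw [mul_ap, mul_ap, rho_dl]
  change Del x (dl (a * s⁻¹, b * t⁻¹)) = rho (s, t) (Del x (dl (a, b)))
  have h1 : x (rho s (dl a)) = rho s (x (dl a)) :=
    congrArg (fun L : Ell2 Λ →L[ℂ] Ell2 Λ => L (dl a)) (hx s)
  rw [Del_dl, Del_dl, rho_Js, ← h1, rho_dl]
  congr 2
  group

/-! ### The flips -/

/-- `(a, b) ↦ (a⁻¹, a⁻¹ b)` -/
def f₁ (Λ : Type) [Group Λ] : Equiv.Perm (Λ × Λ) where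
  toFun p := (p.1⁻¹, p.1⁻¹ * p.2)
  invFun p := (p.1⁻¹, p.1⁻¹ * p.2)
  left_inv p := by ext <;> simp
  right_inv p := by ext <;> simp

/-- `(a, b) ↦ (b⁻¹ a, b⁻¹)` -/
def f₂ (Λ : Type) [Group Λ] : Equiv.Perm (Λ × Λ) where
  toFun p := (p.2⁻¹ * p.1, p.2⁻¹)
  invFun p := (p.2⁻¹ * p.1, p.2⁻¹)
  left_inv p := by ext <;> simp
  right_inv p := by ext <;> simp

theorem ainv_of {X : Type} (e : Equiv.Perm X) (he : ∀ x, e (e x) = x) :
    AInv (fun v : Ell2 X => cj (rei e v)) where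
  add x y := by rw [map_add, cj_add]
  smul c x := by rw [map_smul, cj_smul]
  inner x y := by rw [inner_cj, inner_rei]
  inv x := by
    apply ext_inner_dl
    intro y
    have h : e.symm (e.symm y) = y := by rw [Equiv.symm_apply_eq, Equiv.symm_apply_eq, he]
    change (starRingEnd ℂ) ((starRingEnd ℂ) (x (e.symm (e.symm y)))) = x y
    rw [Complex.conj_conj, h]

/-- The flip of the first leg: `δ_(a,b) ↦ δ_(a⁻¹, a⁻¹ b)`, antilinear. -/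
noncomputable def F₁ (Λ : Type) [Group Λ] (v : Ell2 (Λ × Λ)) : Ell2 (Λ × Λ) := cj (rei (f₁ Λ) v)

/-- The flip of the second leg: `δ_(a,b) ↦ δ_(b⁻¹ a, b⁻¹)`, antilinear. -/
noncomputable def F₂ (Λ : Type) [Group Λ] (v : Ell2 (Λ × Λ)) : Ell2 (Λ × Λ) := cj (rei (f₂ Λ) v)

theorem ainv₁ : AInv (F₁ Λ) := ainv_of (f₁ Λ) (f₁ Λ).left_inv

theorem ainv₂ : AInv (F₂ Λ) := ainv_of (f₂ Λ) (f₂ Λ).left_inv

theorem F₁_ap (v : Ell2 (Λ × Λ)) (p : Λ × Λ) :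
    F₁ Λ v p = (starRingEnd ℂ) (v (p.1⁻¹, p.1⁻¹ * p.2)) := rfl

theorem F₂_ap (v : Ell2 (Λ × Λ)) (p : Λ × Λ) :
    F₂ Λ v p = (starRingEnd ℂ) (v (p.2⁻¹ * p.1, p.2⁻¹)) := rfl

theorem F₁_dl (a b : Λ) : F₁ Λ (dl (a, b)) = dl (a⁻¹, a⁻¹ * b) := by
  rw [F₁, rei_dl, cj_dl]; rfl

theorem F₂_dl (a b : Λ) : F₂ Λ (dl (a, b)) = dl (b⁻¹ * a, b⁻¹) := by
  rw [F₂, rei_dl, cj_dl]; rfl

theorem F₁_one : F₁ Λ (dl (1 : Λ × Λ)) = dl (1 : Λ × Λ) := by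
  change F₁ Λ (dl ((1 : Λ), (1 : Λ))) = dl ((1 : Λ), (1 : Λ))
  rw [F₁_dl, inv_one, one_mul]

theorem F₂_one : F₂ Λ (dl (1 : Λ × Λ)) = dl (1 : Λ × Λ) := by
  change F₂ Λ (dl ((1 : Λ), (1 : Λ))) = dl ((1 : Λ), (1 : Λ))
  rw [F₂_dl, inv_one, one_mul]

/-- The coordinates are exchanged by `swo`. -/
theorem swo_ap (v : Ell2 (Λ × Λ)) (p : Λ × Λ) : swo Λ v p = v (p.2, p.1) := rfl

theorem F₂_swo (v : Ell2 (Λ × Λ)) : F₂ Λ v = swo Λ (F₁ Λ (swo Λ v)) := by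
  apply ext_inner_dl
  rintro ⟨a, b⟩
  rfl

theorem swo_swo_ap (v : Ell2 (Λ × Λ)) : swo Λ (swo Λ v) = v :=
  congrArg (fun L : Ell2 (Λ × Λ) →L[ℂ] Ell2 (Λ × Λ) => L v) (swo_swo (Λ := Λ))

theorem F₁_Js (b : Λ) (u : Ell2 Λ) : F₁ Λ (Js b u) = tv (jv u) (dl b) := by
  classical
  apply ext_inner_dl
  rintro ⟨p, q⟩
  rw [F₁_ap, Js_ap, tv_apply, map_mul]
  change (starRingEnd ℂ) (u p⁻¹) * (starRingEnd ℂ) ((dl b : Ell2 Λ) (p⁻¹⁻¹ * (p⁻¹ * q))) =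
    jv u p * (dl b : Ell2 Λ) q
  rw [inv_inv, mul_inv_cancel_left, dl_apply]
  congr 1
  split_ifs <;> simp

theorem tv_jv_dl (x : Ell2 Λ →L[ℂ] Ell2 Λ) (a b : Λ) :
    tens (JJ x) 1 (dl (a, b)) = tv (jv (x (dl a⁻¹))) (dl b) := by
  rw [tens_dl, JJ_apply', jv_dl, one_apply_eq_self]

theorem F₁_Del (x : Ell2 Λ →L[ℂ] Ell2 Λ) : cjo ainv₁ (Del x) = tens (JJ x) 1 := by
  apply op_ext
  rintro ⟨a, b⟩
  rw [cjo_apply, F₁_dl, Del_dl, inv_inv, mul_inv_cancel_left, F₁_Js, tv_jv_dl]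

/-- `F₁ V = R₁ F₁`. -/
theorem F₁_V (g : Γ) (v : Ell2 (Λ × Λ)) : F₁ Λ (VV α g v) = RR₁ α g (F₁ Λ v) := by
  change F₁ Λ (Del (α g) v) = tens (JJ (α g)) 1 (F₁ Λ v)
  rw [← F₁_Del, cjo_apply, ainv₁.inv]

theorem F₁_R (g : Γ) (v : Ell2 (Λ × Λ)) : F₁ Λ (RR₁ α g v) = VV α g (F₁ Λ v) := by
  have h := F₁_V (α := α) g (F₁ Λ v)
  rw [ainv₁.inv] at h
  rw [← h, ainv₁.inv]

theorem F₁_rr (s : Λ) (v : Ell2 (Λ × Λ)) : F₁ Λ (rr₂ Λ s v) = rr₂ Λ s (F₁ Λ v) := by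
  apply ext_inner_dl
  rintro ⟨p, q⟩
  rw [F₁_ap, rr₂_ap, rr₂_ap, F₁_ap, mul_assoc]

theorem swo_V (hα : Frame α) (g : Γ) (v : Ell2 (Λ × Λ)) :
    swo Λ (VV α g v) = VV α g (swo Λ v) := by
  have h : swo Λ * VV α g = VV α g * swo Λ := by
    apply op_ext
    rintro ⟨a, b⟩
    have e1 : swo Λ (dl (a, b)) = dl (b, a) := rei_dl _ _
    rw [mul_ap, mul_ap, e1]
    change swo Λ (Del (α g) (dl (a, b))) = Del (α g) (dl (b, a))
    rw [Del_dl, Del_dl]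
    have e2 : (dl b : Ell2 Λ) = rho (b⁻¹ * a) (dl a) := by
      rw [rho_dl]; congr 1; group
    have e3 : α g (dl b) = rho (b⁻¹ * a) (α g (dl a)) := by
      rw [e2]
      exact congrArg (fun L : Ell2 Λ →L[ℂ] Ell2 Λ => L (dl a)) (hα.comm g (b⁻¹ * a))
    rw [e3]
    classical
    apply ext_inner_dl
    rintro ⟨p, q⟩
    rw [swo_ap, Js_ap, Js_ap, rho_apply, dl_apply, dl_apply]
    change α g (dl a) q * (if q⁻¹ * p = a⁻¹ * b then 1 else 0) =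
      α g (dl a) (p * (b⁻¹ * a)) * (if p⁻¹ * q = b⁻¹ * a then 1 else 0)
    by_cases hc : p⁻¹ * q = b⁻¹ * a
    · have h2 : q⁻¹ * p = a⁻¹ * b := by
        have := congrArg (fun z => z⁻¹) hc
        simpa [mul_inv_rev] using this
      rw [if_pos hc, if_pos h2, ← hc, mul_inv_cancel_left]
    · have h2 : ¬ q⁻¹ * p = a⁻¹ * b := fun h3 => hc (by
        have := congrArg (fun z => z⁻¹) h3
        simpa [mul_inv_rev] using this)
      rw [if_neg hc, if_neg h2, mul_zero, mul_zero]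
  exact congrArg (fun L : Ell2 (Λ × Λ) →L[ℂ] Ell2 (Λ × Λ) => L v) h

theorem swo_RR₁ (g : Γ) (v : Ell2 (Λ × Λ)) : swo Λ (RR₁ α g v) = RR₂ α g (swo Λ v) :=
  congrArg (fun L : Ell2 (Λ × Λ) →L[ℂ] Ell2 (Λ × Λ) => L v) (swo_tens (JJ (α g)) 1)

theorem swo_RR₂ (g : Γ) (v : Ell2 (Λ × Λ)) : swo Λ (RR₂ α g v) = RR₁ α g (swo Λ v) :=
  congrArg (fun L : Ell2 (Λ × Λ) →L[ℂ] Ell2 (Λ × Λ) => L v) (swo_tens 1 (JJ (α g)))

theorem swo_rr₁ (s : Λ) (v : Ell2 (Λ × Λ)) : swo Λ (rr₁ Λ s v) = rr₂ Λ s (swo Λ v) :=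
  congrArg (fun L : Ell2 (Λ × Λ) →L[ℂ] Ell2 (Λ × Λ) => L v) (swo_tens (rho s) 1)

theorem swo_rr₂ (s : Λ) (v : Ell2 (Λ × Λ)) : swo Λ (rr₂ Λ s v) = rr₁ Λ s (swo Λ v) :=
  congrArg (fun L : Ell2 (Λ × Λ) →L[ℂ] Ell2 (Λ × Λ) => L v) (swo_tens 1 (rho s))

theorem F₂_V (hα : Frame α) (g : Γ) (v : Ell2 (Λ × Λ)) : F₂ Λ (VV α g v) = RR₂ α g (F₂ Λ v) := by
  rw [F₂_swo, F₂_swo, swo_V hα, F₁_V, swo_RR₁]

theorem F₂_R (hα : Frame α) (g : Γ) (v : Ell2 (Λ × Λ)) : F₂ Λ (RR₂ α g v) = VV α g (F₂ Λ v) := by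
  rw [F₂_swo, F₂_swo, swo_RR₂, F₁_R, swo_V hα]

theorem F₂_rr (s : Λ) (v : Ell2 (Λ × Λ)) : F₂ Λ (rr₁ Λ s v) = rr₁ Λ s (F₂ Λ v) := by
  rw [F₂_swo, F₂_swo, swo_rr₁, F₁_rr, swo_rr₂]

/-! ### Commutation relations -/

theorem V_adj (hα : Frame α) (g : Γ) : adjoint (VV α g) = VV α g⁻¹ := by
  change adjoint (Del (α g)) = Del (α g⁻¹)
  rw [Del_adjoint, hα.reg.adj]

theorem RR₁_adj (hα : Frame α) (g : Γ) : adjoint (RR₁ α g) = RR₁ α g⁻¹ := by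
  change adjoint (tens (JJ (α g)) 1) = tens (JJ (α g⁻¹)) 1
  have h1 : adjoint (1 : Ell2 Λ →L[ℂ] Ell2 Λ) = 1 := by rw [← star_eq_adjoint, star_one]
  rw [adjoint_tens, JJ_adjoint, hα.reg.adj, h1]

theorem RR₂_adj (hα : Frame α) (g : Γ) : adjoint (RR₂ α g) = RR₂ α g⁻¹ := by
  change adjoint (tens 1 (JJ (α g))) = tens 1 (JJ (α g⁻¹))
  have h1 : adjoint (1 : Ell2 Λ →L[ℂ] Ell2 Λ) = 1 := by rw [← star_eq_adjoint, star_one]
  rw [adjoint_tens, JJ_adjoint, hα.reg.adj, h1]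

theorem rr₁_adj (s : Λ) : adjoint (rr₁ Λ s) = rr₁ Λ s⁻¹ := by
  rw [rr₁_eq, rr₁_eq, adjoint_rho]
  congr 1
  exact Prod.ext rfl inv_one

theorem rr₂_adj (s : Λ) : adjoint (rr₂ Λ s) = rr₂ Λ s⁻¹ := by
  rw [rr₂_eq, rr₂_eq, adjoint_rho]
  congr 1
  exact Prod.ext inv_one rfl

theorem V_rho (hα : Frame α) (g : Γ) (p : Λ × Λ) : VV α g * rho p = rho p * VV α g :=
  Del_rho (hα.comm g) p

theorem V_rr₁ (hα : Frame α) (g : Γ) (s : Λ) : VV α g * rr₁ Λ s = rr₁ Λ s * VV α g := by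
  rw [rr₁_eq, V_rho hα]

theorem V_rr₂ (hα : Frame α) (g : Γ) (s : Λ) : VV α g * rr₂ Λ s = rr₂ Λ s * VV α g := by
  rw [rr₂_eq, V_rho hα]

theorem V_RR₁ (hα : Frame α) (g h : Γ) : VV α g * RR₁ α h = RR₁ α h * VV α g :=
  ((commStmt α hα (VV α g)).1.mpr fun s => V_rr₁ hα g s) h

theorem V_RR₂ (hα : Frame α) (g h : Γ) : VV α g * RR₂ α h = RR₂ α h * VV α g :=
  ((commStmt α hα (VV α g)).2.mpr fun s => V_rr₂ hα g s) h

theorem RR₁_RR₂ (g h : Γ) : RR₁ α g * RR₂ α h = RR₂ α h * RR₁ α g := by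
  change tens (JJ (α g)) 1 * tens 1 (JJ (α h)) = tens 1 (JJ (α h)) * tens (JJ (α g)) 1
  rw [← tens_mul, ← tens_mul, one_mul, mul_one, one_mul, mul_one]

theorem RR₁_rr₂ (g : Γ) (s : Λ) : RR₁ α g * rr₂ Λ s = rr₂ Λ s * RR₁ α g := by
  change tens (JJ (α g)) 1 * tens 1 (rho s) = tens 1 (rho s) * tens (JJ (α g)) 1
  rw [← tens_mul, ← tens_mul, one_mul, mul_one, one_mul, mul_one]

theorem RR₂_rr₁ (g : Γ) (s : Λ) : RR₂ α g * rr₁ Λ s = rr₁ Λ s * RR₂ α g := by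
  change tens 1 (JJ (α g)) * tens (rho s) 1 = tens (rho s) 1 * tens 1 (JJ (α g))
  rw [← tens_mul, ← tens_mul, one_mul, mul_one, one_mul, mul_one]

theorem rr₁_rr₂ (s t : Λ) : rr₁ Λ s * rr₂ Λ t = rr₂ Λ t * rr₁ Λ s := by
  change tens (rho s) 1 * tens 1 (rho t) = tens 1 (rho t) * tens (rho s) 1
  rw [← tens_mul, ← tens_mul, one_mul, mul_one, one_mul, mul_one]

/-- `{R₁(Γ)}' = {r₁(Λ)}'` -/
theorem cmm_one (hα : Frame α) (T : Ell2 (Λ × Λ) →L[ℂ] Ell2 (Λ × Λ)) :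
    Cmm (RR₁ α) T ↔ Cmm (rr₁ Λ) T := (commStmt α hα T).1

/-- `{R₂(Γ)}' = {r₂(Λ)}'` -/
theorem cmm_two (hα : Frame α) (T : Ell2 (Λ × Λ) →L[ℂ] Ell2 (Λ × Λ)) :
    Cmm (RR₂ α) T ↔ Cmm (rr₂ Λ) T := (commStmt α hα T).2

/-! ### The frames -/

/-- Tensor product of regular representations. -/
theorem regRep_tens {A B X Y : Type} [Group A] [Group B] {π : A →* (Ell2 X →L[ℂ] Ell2 X)}
    {σ : B →* (Ell2 Y →L[ℂ] Ell2 Y)} {ξ : Ell2 X} {η : Ell2 Y} (hπ : RegRep π ξ)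
    (hσ : RegRep σ η) (τ : A × B →* (Ell2 (X × Y) →L[ℂ] Ell2 (X × Y)))
    (hτ : ∀ p, τ p = tens (π p.1) (σ p.2)) : RegRep τ (tv ξ η) where
  adj p := by
    rw [hτ, hτ, adjoint_tens, hπ.adj, hσ.adj]; rfl
  norm_one := by
    have h1 : ⟪tv ξ η, tv ξ η⟫_ℂ = 1 := by
      rw [inner_tv, inner_self_eq_norm_sq_to_K, inner_self_eq_norm_sq_to_K, hπ.norm_one,
        hσ.norm_one]
      simp
    rw [inner_self_eq_norm_sq_to_K] at h1
    have h2 : ‖tv ξ η‖ ^ 2 = 1 ^ 2 := by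
      rw [one_pow]
      have h3 : ((‖tv ξ η‖ ^ 2 : ℝ) : ℂ) = ((1 : ℝ) : ℂ) := by
        push_cast
        exact h1
      exact Complex.ofReal_injective h3
    exact (pow_left_inj₀ (norm_nonneg _) zero_le_one two_ne_zero).mp h2
  inner_zero p hp := by
    rw [hτ, tens_tv, inner_tv]
    by_cases h1 : p.1 = 1
    · have h2 : p.2 ≠ 1 := fun h2 => hp (Prod.ext h1 h2)
      rw [hσ.inner_zero p.2 h2, mul_zero]
    · rw [hπ.inner_zero p.1 h1, zero_mul]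
  total v hv := by
    refine tens_total (fun v hv => hπ.total v hv) (fun v hv => hσ.total v hv) (fun g h => ?_)
    have h1 := hv (g, h)
    rwa [hτ, tens_tv] at h1

/-- The flipped frame of the first leg: `(g, c) ↦ V_g r₂(c)`. -/
noncomputable def RV₁ (hα : Frame α) : Γ × Λ →* (Ell2 (Λ × Λ) →L[ℂ] Ell2 (Λ × Λ)) where
  toFun p := VV α p.1 * rr₂ Λ p.2
  map_one' := by rw [Prod.fst_one, Prod.snd_one, map_one, map_one, one_mul]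
  map_mul' p q := by
    rw [Prod.fst_mul, Prod.snd_mul, map_mul, map_mul, mul_assoc, ← mul_assoc (VV α q.1),
      V_rr₂ hα, mul_assoc, mul_assoc, ← mul_assoc (rr₂ Λ p.2)]

/-- The flipped frame of the second leg: `(g, c) ↦ V_g r₁(c)`. -/
noncomputable def RV₂ (hα : Frame α) : Γ × Λ →* (Ell2 (Λ × Λ) →L[ℂ] Ell2 (Λ × Λ)) where
  toFun p := VV α p.1 * rr₁ Λ p.2
  map_one' := by rw [Prod.fst_one, Prod.snd_one, map_one, map_one, one_mul]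
  map_mul' p q := by
    rw [Prod.fst_mul, Prod.snd_mul, map_mul, map_mul, mul_assoc, ← mul_assoc (VV α q.1),
      V_rr₁ hα, mul_assoc, mul_assoc, ← mul_assoc (rr₁ Λ p.2)]

theorem RV₁_ap (hα : Frame α) (p : Γ × Λ) : RV₁ hα p = VV α p.1 * rr₂ Λ p.2 := rfl

theorem RV₂_ap (hα : Frame α) (p : Γ × Λ) : RV₂ hα p = VV α p.1 * rr₁ Λ p.2 := rfl

/-- `(g, c) ↦ R₁(g) r₂(c)` -/
noncomputable def T₁ (α : Γ →* (Ell2 Λ →L[ℂ] Ell2 Λ)) :
    Γ × Λ →* (Ell2 (Λ × Λ) →L[ℂ] Ell2 (Λ × Λ)) where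
  toFun p := tens (JJ (α p.1)) (rho p.2)
  map_one' := by rw [Prod.fst_one, Prod.snd_one, map_one, JJ_one, rho_one, tens_one]
  map_mul' p q := by
    rw [Prod.fst_mul, Prod.snd_mul, map_mul, JJ_mul, rho_mul, ← tens_mul]

theorem T₁_ap (p : Γ × Λ) : T₁ α p = RR₁ α p.1 * rr₂ Λ p.2 := by
  change tens (JJ (α p.1)) (rho p.2) = tens (JJ (α p.1)) 1 * tens 1 (rho p.2)
  rw [← tens_mul, one_mul, mul_one]

theorem regRep_T₁ (hα : Frame α) : RegRep (T₁ α) (dl (1 : Λ × Λ)) := by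
  rw [dl_one_prod]
  exact regRep_tens (regRep_JA hα) (regRep_rho (G := Λ)) (T₁ α) fun p => rfl

/-- The flipped frame of the first leg is a regular representation. -/
theorem regRep_RV₁ (hα : Frame α) : RegRep (RV₁ hα) (dl (1 : Λ × Λ)) := by
  refine regRep_cjo ainv₁ (regRep_T₁ hα) F₁_one fun p v => ?_
  rw [T₁_ap, RV₁_ap, mul_ap, mul_ap, F₁_R, F₁_rr]

/-- The exchange of the legs, as a transport of regular representations. -/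
theorem regRep_RV₂ (hα : Frame α) : RegRep (RV₂ hα) (dl (1 : Λ × Λ)) where
  adj p := by
    rw [RV₂_ap, RV₂_ap]
    have h := congrArg adjoint (V_rr₁ hα p.1 p.2)
    rw [← star_eq_adjoint, ← star_eq_adjoint, star_mul, star_mul, star_eq_adjoint,
      star_eq_adjoint, V_adj hα, rr₁_adj] at h
    rw [V_rr₁ hα, ← star_eq_adjoint, star_mul, star_eq_adjoint, star_eq_adjoint, V_adj hα,
      rr₁_adj]
    rfl
  norm_one := norm_dl 1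
  inner_zero p hp := by
    have h := (regRep_RV₁ hα).inner_zero p hp
    rw [RV₁_ap, mul_ap] at h
    rw [RV₂_ap, mul_ap]
    have e1 : swo Λ (dl (1 : Λ × Λ)) = dl (1 : Λ × Λ) := rei_dl _ _
    have e2 : ∀ u v : Ell2 (Λ × Λ), ⟪swo Λ u, swo Λ v⟫_ℂ = ⟪u, v⟫_ℂ := fun u v => inner_rei _ _ _
    rw [← e2, swo_V hα, swo_rr₁, e1]
    exact h
  total v hv := by
    have e1 : swo Λ (dl (1 : Λ × Λ)) = dl (1 : Λ × Λ) := rei_dl _ _
    have e2 : ∀ u v : Ell2 (Λ × Λ), ⟪swo Λ u, swo Λ v⟫_ℂ = ⟪u, v⟫_ℂ := fun u v => inner_rei _ _ _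
    have h : swo Λ v = 0 := by
      refine (regRep_RV₁ hα).total _ fun p => ?_
      rw [RV₁_ap, mul_ap]
      have h1 := hv p
      rw [RV₂_ap, mul_ap, ← e2, swo_V hα, swo_rr₁, e1] at h1
      exact h1
    rw [← swo_swo_ap v, h, map_zero]

/-- The frame of `Γ × Γ` with the source `V`. -/
theorem frm (hα : Frame α) : Sm.Frm (RRR α) (VV α) (dl (1 : Λ × Λ)) where
  reg := regRep_RRR hα
  adj := V_adj hα
  comm v p := by
    rw [RRR_apply, ← mul_assoc, V_RR₁ hα, mul_assoc, V_RR₂ hα, mul_assoc]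
  ort v hv := by
    have h := (regRep_RV₁ hα).inner_zero (v, 1) (fun h => hv (congrArg Prod.fst h))
    rw [RV₁_ap, map_one, mul_one] at h
    exact h

/-- The flipped frame of the first leg, with the target `R₁`. -/
theorem frm₁ (hα : Frame α) : Sm.Frm (RV₁ hα) (RR₁ α) (dl (1 : Λ × Λ)) where
  reg := regRep_RV₁ hα
  adj := RR₁_adj hα
  comm v p := by
    rw [RV₁_ap, ← mul_assoc, ← V_RR₁ hα, mul_assoc, RR₁_rr₂, mul_assoc]
  ort v hv := by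
    have h := (regRep_RRR hα).inner_zero (v, 1) (fun h => hv (congrArg Prod.fst h))
    rw [RRR_apply, map_one, mul_one] at h
    exact h

/-- The flipped frame of the second leg, with the target `R₂`. -/
theorem frm₂ (hα : Frame α) : Sm.Frm (RV₂ hα) (RR₂ α) (dl (1 : Λ × Λ)) where
  reg := regRep_RV₂ hα
  adj := RR₂_adj hα
  comm v p := by
    rw [RV₂_ap, ← mul_assoc, ← V_RR₂ hα, mul_assoc, RR₂_rr₁, mul_assoc]
  ort v hv := by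
    have h := (regRep_RRR hα).inner_zero (1, v) (fun h => hv (congrArg Prod.snd h))
    rw [RRR_apply, map_one, one_mul] at h
    exact h

end Vale.Agent.P092.H734.Q
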