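import Vale.Agent.P092.H734.QEsc
import Vale.Agent.P092.H971.PlcSL
import Vale.Agent.P092.H859.LatQ
import Vale.Agent.P092.PA.FacInst

/-!
P092 (helper734), project Q, [Q-LAT]: the places of an ICC lattice in a finite product of groups
`SL_n(k)`, `k` any local field, modulo the centres.
-/

set_option linter.all false

open MeasureTheory Filter Topology Set Matrix
open scoped Pointwise ENNReal

namespace Vale.Agent.P092.H734.Q

open Vale.Agent.P092.H515.St Vale.Agent.P092.H971 Vale.Agent.P092.SR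

section psl

variable (n : ℕ) (k : Type) [NontriviallyNormedField k]

theorem t2_PSLk : T2Space (PSLk n k) := by
  haveI : T2Space (SpecialLinearGroup (Fin n) k) := PA.t2_SL
  have h : IsClosed ((Subgroup.center (SpecialLinearGroup (Fin n) k) :
      Subgroup (SpecialLinearGroup (Fin n) k)) : Set (SpecialLinearGroup (Fin n) k)) :=
    (PA.finite_center_SL (k := k) (n := n)).isClosed
  infer_instance

theorem lc_PSLk [ProperSpace k] : LocallyCompactSpace (PSLk n k) := by
  haveI : LocallyCompactSpace (SpecialLinearGroup (Fin n) k) := PA.lc_SL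
  infer_instance

theorem sc_PSLk [ProperSpace k] : SecondCountableTopology (PSLk n k) := by
  haveI : SecondCountableTopology (SpecialLinearGroup (Fin n) k) := PA.sc_SL
  infer_instance

theorem nc_PSLk (hn : 2 ≤ n) : ¬ CompactSpace (PSLk n k) :=
  PA.nc_quot _ (PA.finite_center_SL (k := k) (n := n)).isCompact (PA.nc_SL hn)

end psl

section lat

variable {I : Type} [Finite I] {n : I → ℕ} {k : I → Type} [∀ i, NontriviallyNormedField (k i)]
  [∀ i, ProperSpace (k i)]

theorem lat_pjq (Γ : Subgroup (∀ i, SpecialLinearGroup (Fin (n i)) (k i)))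
    (hlat : IsLattice Γ) : IsLattice (MonoidHom.pi (pjq Γ)).range := by
  have := fun i => lc_sl (n i) (k i)
  have := fun i => sc_sl (n i) (k i)
  exact lat_quot (pj Γ) (by rw [pi_pj]; exact hlat) fun i => H793.finite_center.isCompact

theorem inj_pjq (Γ : Subgroup (∀ i, SpecialLinearGroup (Fin (n i)) (k i)))
    (hicc : ∀ g : Γ, g ≠ 1 → Set.Infinite {y : Γ | ∃ h, y = h * g * h⁻¹}) :
    ∀ g, (∀ i, pjq Γ i g = 1) → g = 1 := by
  have := fun i => lc_sl (n i) (k i)
  have := fun i => sc_sl (n i) (k i)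
  exact inj_quot (pj Γ) (pj_inj Γ) hicc

theorem dense_pjq (Γ : Subgroup (∀ i, SpecialLinearGroup (Fin (n i)) (k i))) {i : I}
    (hd : DenseRange (pj Γ i)) : DenseRange (pjq Γ i) :=
  (QuotientGroup.mk'_surjective _).denseRange.comp hd continuous_quotient_mk'

theorem countable_lat (Γ : Subgroup (∀ i, SpecialLinearGroup (Fin (n i)) (k i)))
    (hlat : IsLattice Γ) : Countable Γ := by
  have := fun i => sc_sl (n i) (k i)
  have := hlat.disc
  exact H790.countable_of_discrete _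

/-- **[Q-LAT] (1)** -/
theorem exists_lat_pjq (Γ : Subgroup (∀ i, SpecialLinearGroup (Fin (n i)) (k i)))
    (hlat : IsLattice Γ)
    (hicc : ∀ g : Γ, g ≠ 1 → Set.Infinite {y : Γ | ∃ h, y = h * g * h⁻¹})
    [∀ i, MeasurableSpace (PSLk (n i) (k i))] [∀ i, BorelSpace (PSLk (n i) (k i))] :
    ∃ m : Measure (∀ i, PSLk (n i) (k i)), PA.Lat (MonoidHom.pi (pjq Γ)) m := by
  have := fun i => lc_PSLk (n i) (k i)
  have := fun i => sc_PSLk (n i) (k i)
  have := fun i => t2_PSLk (n i) (k i)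
  have hinj : Function.Injective (MonoidHom.pi (pjq Γ)) := by
    rw [injective_iff_map_eq_one]
    intro g hg
    exact inj_pjq Γ hicc g fun i => congrFun hg i
  have hL := lat_pjq Γ hlat
  exact H859.exists_lat (MonoidHom.pi (pjq Γ)) hinj ⟨hL.disc, hL.covol⟩

/-- **[Q-LAT] (2)** -/
theorem esc_pjq (Γ : Subgroup (∀ i, SpecialLinearGroup (Fin (n i)) (k i)))
    (hlat : IsLattice Γ) {i j : I} (hij : i ≠ j) (hj : 2 ≤ n j) :
    Vale.Agent.P092.Q.Esc (pjq Γ i) (pjq Γ j) := by
  classical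
  have := fun i => lc_PSLk (n i) (k i)
  have := fun i => sc_PSLk (n i) (k i)
  have := fun i => t2_PSLk (n i) (k i)
  have hL := lat_pjq Γ hlat
  refine esc_of_far fun U hU C hC => ?_
  obtain ⟨v, ⟨g, rfl⟩, h1, h2⟩ := exists_far (MonoidHom.pi (pjq Γ)).range ⟨hL.disc, hL.covol⟩
    (nc_PSLk (n j) (k j) hj) (Pi.evalMonoidHom (fun i => PSLk (n i) (k i)) i)
    (Pi.evalMonoidHom (fun i => PSLk (n i) (k i)) j) (continuous_apply i) (continuous_apply j)
    (fun h => Function.update 1 j h) (fun h => by simp [Function.update_of_ne hij])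
    (fun h => by simp) hU hC
  exact ⟨g, h1, h2⟩

/-- All the inputs of `Q.Blk.main` on the side of the group. -/
theorem places (hn : ∀ i, 2 ≤ n i) (hk : ∀ i, H933.LocK (k i))
    (Γ : Subgroup (∀ i, SpecialLinearGroup (Fin (n i)) (k i)))
    (hlat : IsLattice Γ) (hd : ∀ i, DenseRange (pj Γ i))
    (hicc : ∀ g : Γ, g ≠ 1 → Set.Infinite {y : Γ | ∃ h, y = h * g * h⁻¹})
    [∀ i, MeasurableSpace (PSLk (n i) (k i))] [∀ i, BorelSpace (PSLk (n i) (k i))] :
    Countable Γ ∧ (∃ m : Measure (∀ i, PSLk (n i) (k i)), PA.Lat (MonoidHom.pi (pjq Γ)) m) ∧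
      (∀ i, PA.FacS (PSLk (n i) (k i))) ∧ (∀ i, DenseRange (pjq Γ i)) ∧
      (∀ i j, i ≠ j → Vale.Agent.P092.Q.Esc (pjq Γ i) (pjq Γ j)) ∧
      (∀ g, (∀ i, pjq Γ i g = 1) → g = 1) :=
  ⟨countable_lat Γ hlat, exists_lat_pjq Γ hlat hicc, fun i => PA.facS_psl (hk i) (hn i),
    fun i => dense_pjq Γ (hd i), fun i j hij => esc_pjq Γ hlat hij (hn j), inj_pjq Γ hicc⟩

/-- Haar measures. -/
theorem exists_haar (hn : ∀ i, 2 ≤ n i) (hk : ∀ i, H933.LocK (k i))
    [∀ i, MeasurableSpace (PSLk (n i) (k i))] [∀ i, BorelSpace (PSLk (n i) (k i))] :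
    ∃ μ : ∀ i, Measure (PSLk (n i) (k i)), (∀ i, (μ i).IsHaarMeasure) ∧
      ∀ i, (μ i).IsMulRightInvariant := by
  have := fun i => lc_PSLk (n i) (k i)
  have := fun i => t2_PSLk (n i) (k i)
  refine ⟨fun i => Measure.haar, fun i => inferInstance, fun i => ?_⟩
  exact (PA.facS_psl (hk i) (hn i)).isMulRightInvariant Measure.haar

end lat

end Vale.Agent.P092.H734.Q
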